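import Vale.Agent.Lib.P054.Grid

/-! # P054, pinned distances in dense grid subsets: transfer to integer vectors -/

open Finset

namespace Vale.Agent.Lib.P054

lemma nsq_neg_sub {d : ℕ} (v w : Fin d → ℤ) : nsq (v - w) = nsq (w - v) := by
  unfold nsq
  refine Finset.sum_congr rfl (fun i _ => ?_)
  simp only [Pi.sub_apply]
  ring

lemma transfer_pinned {d : ℕ} (t : ℕ) (P : Finset (EuclideanSpace ℝ (Fin d)))
    (hgrid : ∀ p ∈ P, ∀ i, ∃ k : ℕ, 1 ≤ k ∧ k ≤ t ∧ p i = k)
    (p : EuclideanSpace ℝ (Fin d)) (hp : p ∈ P) :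
    ∃ (Q : Finset (Fin d → ℤ)) (p' : Fin d → ℤ), (∀ q ∈ Q, ∀ i, 1 ≤ q i ∧ q i ≤ t) ∧
      (∀ i, 1 ≤ p' i ∧ p' i ≤ t) ∧ Q.card = (P.erase p).card ∧
      (Q.image (fun q => nsq (q - p'))).card ≤ ((P.erase p).image (fun q => dist p q)).card := by
  classical
  have hex : ∀ r ∈ P, ∃ v : Fin d → ℤ, (∀ i, 1 ≤ v i ∧ v i ≤ t) ∧ emb v = r := by
    intro r hr
    choose k hk using hgrid r hr
    refine ⟨fun i => (k i : ℤ), fun i => ⟨by
      show (1:ℤ) ≤ (k i : ℤ)
      exact_mod_cast (hk i).1, by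
      show (k i : ℤ) ≤ (t : ℤ)
      exact_mod_cast (hk i).2.1⟩, ?_⟩
    ext i
    simp only [emb]
    rw [(hk i).2.2]
    push_cast
    rfl
  obtain ⟨p', hp', hpe⟩ := hex p hp
  set Q : Finset (Fin d → ℤ) :=
    (Fintype.piFinset (fun _ => Finset.Icc (1:ℤ) t)).filter (fun v => emb v ∈ P.erase p) with hQ
  have himg : Q.image emb = P.erase p := by
    apply Finset.Subset.antisymm
    · intro r hr
      rw [Finset.mem_image] at hr
      obtain ⟨v, hv, rfl⟩ := hr
      exact (Finset.mem_filter.mp hv).2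
    · intro r hr
      obtain ⟨v, hv, hve⟩ := hex r (Finset.mem_of_mem_erase hr)
      rw [Finset.mem_image]
      refine ⟨v, ?_, hve⟩
      rw [hQ, Finset.mem_filter, Fintype.mem_piFinset]
      exact ⟨fun i => Finset.mem_Icc.mpr (hv i), by rw [hve]; exact hr⟩
  refine ⟨Q, p', ?_, hp', ?_, ?_⟩
  · intro q hq i
    have := (Finset.mem_filter.mp hq).1
    rw [Fintype.mem_piFinset] at this
    exact Finset.mem_Icc.mp (this i)
  · rw [← himg, Finset.card_image_of_injective _ emb_injective]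
  · apply Finset.card_le_card_of_injOn (fun N : ℤ => Real.sqrt (N:ℝ))
    · intro N hN
      have hN' : N ∈ Q.image (fun q => nsq (q - p')) := hN
      rw [Finset.mem_image] at hN'
      obtain ⟨v, hv, rfl⟩ := hN'
      show Real.sqrt _ ∈ _
      simp only [Finset.coe_image, Set.mem_image, Finset.mem_coe]
      refine ⟨emb v, ?_, ?_⟩
      · rw [← himg]; exact Finset.mem_image_of_mem _ hv
      · rw [← hpe, dist_emb, nsq_neg_sub]
    · intro N1 h1 N2 h2 h
      have hnn : ∀ N ∈ Q.image (fun q => nsq (q - p')), (0:ℝ) ≤ (N:ℝ) := by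
        intro N hN
        rw [Finset.mem_image] at hN
        obtain ⟨q, _, rfl⟩ := hN
        exact_mod_cast nsq_nonneg _
      simp only at h
      have := (Real.sqrt_inj (hnn N1 h1) (hnn N2 h2)).mp h
      exact_mod_cast this

end Vale.Agent.Lib.P054
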