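import Mathlib

/-!
# P054: dense subsets of the integer grid

Helper lemmas: translation pigeonhole in the grid, transfer between integer vectors and
Euclidean space, numerics.
-/

open Finset

namespace Vale.Agent.Lib.P054


/-- squared Euclidean norm of an integer vector -/
def nsq {d : ℕ} (v : Fin d → ℤ) : ℤ := ∑ i, (v i)^2

/-- set of squared distances of an integer point set -/
def sqDists {d : ℕ} (Q : Finset (Fin d → ℤ)) : Finset ℤ :=
  Q.offDiag.image (fun pq => nsq (pq.1 - pq.2))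

lemma nsq_smul {d : ℕ} (m : ℤ) (v : Fin d → ℤ) : nsq (m • v) = m^2 * nsq v := by
  unfold nsq
  rw [Finset.mul_sum]
  refine Finset.sum_congr rfl (fun i _ => ?_)
  simp only [Pi.smul_apply, smul_eq_mul]
  ring

lemma nsq_eq_zero {d : ℕ} {v : Fin d → ℤ} (h : nsq v = 0) : v = 0 := by
  unfold nsq at h
  rw [Finset.sum_eq_zero_iff_of_nonneg (fun i _ => sq_nonneg _)] at h
  funext i
  have := h i (Finset.mem_univ i)
  simpa using this

/-- translation pigeonhole -/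
lemma exists_multiple {d : ℕ} (t k s : ℕ) (Q : Finset (Fin d → ℤ))
    (hQ : ∀ p ∈ Q, ∀ i, 1 ≤ p i ∧ p i ≤ t)
    (hk : (t + k * s)^d < (k+1) * Q.card)
    (v : Fin d → ℤ) (hv : ∀ i, 0 ≤ v i ∧ v i ≤ s) (hv0 : nsq v ≠ 0) :
    ∃ m : ℕ, 1 ≤ m ∧ m ≤ k ∧ (m:ℤ)^2 * nsq v ∈ sqDists Q := by
  classical
  set box : Finset (Fin d → ℤ) := Fintype.piFinset (fun _ => Finset.Icc (1:ℤ) (t + k*s : ℕ)) with hbox
  have hboxcard : box.card = (t + k*s)^d := by
    rw [hbox, Fintype.card_piFinset]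
    simp only [Int.card_Icc, Finset.prod_const, Finset.card_univ, Fintype.card_fin]
    congr 1
    omega
  set dom : Finset (ℕ × (Fin d → ℤ)) := (Finset.range (k+1)) ×ˢ Q with hdom
  have hdomcard : dom.card = (k+1) * Q.card := by
    rw [hdom, Finset.card_product, Finset.card_range]
  let F : ℕ × (Fin d → ℤ) → (Fin d → ℤ) := fun ip => ip.2 + (ip.1 : ℤ) • v
  have hmaps : ∀ a ∈ dom, F a ∈ box := by
    rintro ⟨i, p⟩ ha
    rw [hdom, Finset.mem_product, Finset.mem_range] at ha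
    obtain ⟨hi, hp⟩ := ha
    simp only at hi hp
    rw [hbox, Fintype.mem_piFinset]
    intro j
    rw [Finset.mem_Icc]
    have h1 := hQ p hp j
    have h2 := hv j
    have hi' : (i:ℤ) ≤ k := by exact_mod_cast Nat.lt_succ_iff.mp hi
    have hi0 : (0:ℤ) ≤ i := by positivity
    simp only [F, Pi.add_apply, Pi.smul_apply, smul_eq_mul]
    constructor
    · have : 0 ≤ (i:ℤ) * v j := mul_nonneg hi0 h2.1
      linarith [h1.1]
    · have : (i:ℤ) * v j ≤ k * s := mul_le_mul hi' h2.2 h2.1 (by positivity)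
      push_cast
      linarith [h1.2]
  have hlt : box.card < dom.card := by rw [hboxcard, hdomcard]; exact hk
  obtain ⟨⟨i, p⟩, ha, ⟨j, q⟩, hb, hne, heq⟩ := Finset.exists_ne_map_eq_of_card_lt_of_maps_to hlt hmaps
  rw [hdom, Finset.mem_product, Finset.mem_range] at ha hb
  simp only at ha hb
  simp only [F] at heq
  -- general claim for i < j
  have key : ∀ (i j : ℕ) (p q : Fin d → ℤ), i < j → j < k+1 → p ∈ Q → q ∈ Q →
      p + (i:ℤ) • v = q + (j:ℤ) • v → ∃ m : ℕ, 1 ≤ m ∧ m ≤ k ∧ (m:ℤ)^2 * nsq v ∈ sqDists Q := by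
    intro i j p q hij hj hp hq h
    refine ⟨j - i, by omega, by omega, ?_⟩
    have hpq : p - q = ((j - i : ℕ) : ℤ) • v := by
      have : ((j - i : ℕ) : ℤ) = (j:ℤ) - i := by
        rw [Nat.cast_sub hij.le]
      rw [this, sub_smul]
      have h' : p = q + (j:ℤ) • v - (i:ℤ) • v := by rw [← h]; abel
      rw [h']; abel
    rw [← nsq_smul, ← hpq]
    unfold sqDists
    rw [Finset.mem_image]
    refine ⟨(p, q), ?_, rfl⟩
    rw [Finset.mem_offDiag]
    refine ⟨hp, hq, ?_⟩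
    intro hpq'
    simp only at hpq'
    rw [hpq', sub_self] at hpq
    have : nsq (((j - i : ℕ) : ℤ) • v) = 0 := by rw [← hpq]; simp [nsq]
    rw [nsq_smul] at this
    have hm : ((j - i : ℕ) : ℤ) ≠ 0 := by
      have : 0 < j - i := by omega
      exact_mod_cast this.ne'
    rcases mul_eq_zero.mp this with h1 | h1
    · exact hm (by simpa using h1)
    · exact hv0 h1
  rcases lt_trichotomy i j with hij | hij | hij
  · exact key i j p q hij hb.1 ha.2 hb.2 heq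
  · exfalso
    subst hij
    apply hne
    have : p = q := by
      have := add_right_cancel heq
      exact this
    rw [this]
  · exact key j i q p hij ha.1 hb.2 ha.2 heq.symm

/-- every `N ≤ s^2` is the squared norm of a vector in `{0..s}^d`, for `d ≥ 4`. -/
lemma exists_vec_four {d : ℕ} (hd : 4 ≤ d) (s N : ℕ) (hN : N ≤ s^2) :
    ∃ v : Fin d → ℤ, (∀ i, 0 ≤ v i ∧ v i ≤ s) ∧ nsq v = N := by
  obtain ⟨a, b, c, e, h⟩ := Nat.sum_four_squares N
  obtain ⟨d', rfl⟩ : ∃ d', d = 4 + d' := ⟨d - 4, by omega⟩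
  have hle : ∀ x : ℕ, x^2 ≤ N → x ≤ s := by
    intro x hx
    have : x^2 ≤ s^2 := hx.trans hN
    exact (Nat.pow_le_pow_iff_left (by norm_num)).mp this
  have ha : a ≤ s := hle a (by nlinarith)
  have hb : b ≤ s := hle b (by nlinarith)
  have hc : c ≤ s := hle c (by nlinarith)
  have he : e ≤ s := hle e (by nlinarith)
  let g : ℕ → ℕ := fun j => if j = 0 then a else if j = 1 then b else if j = 2 then c else if j = 3 then e else 0
  have hg : ∀ j, g j ≤ s := by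
    intro j
    simp only [g]
    split_ifs <;> first | assumption | exact Nat.zero_le _
  refine ⟨fun i => (g i.val : ℤ), fun i => ⟨by positivity, by
    show (g i.val : ℤ) ≤ s
    exact_mod_cast hg i.val⟩, ?_⟩
  unfold nsq
  have h1 : ∑ i : Fin (4 + d'), ((g i.val : ℤ))^2 = ∑ j ∈ Finset.range (4 + d'), ((g j : ℤ))^2 :=
    Fin.sum_univ_eq_sum_range (fun j => ((g j : ℤ))^2) (4 + d')
  rw [h1, Finset.sum_range_add]
  have h2 : ∑ x ∈ Finset.range d', ((g (4 + x) : ℤ))^2 = 0 := by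
    apply Finset.sum_eq_zero
    intro x _
    have : g (4 + x) = 0 := by
      simp only [g]
      rw [if_neg (by omega), if_neg (by omega), if_neg (by omega), if_neg (by omega)]
    rw [this]; simp
  rw [h2]
  simp only [Finset.sum_range_succ, Finset.sum_range_zero, g]
  simp
  rw [← h]
  push_cast
  ring


/-- counting lemma: a set `S` of nonzero squared norms of vectors of `{0..s}^d` has at most
`k * |sqDists Q|` elements. -/
lemma card_le_mul_card {d : ℕ} (t k s : ℕ) (Q : Finset (Fin d → ℤ))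
    (hQ : ∀ p ∈ Q, ∀ i, 1 ≤ p i ∧ p i ≤ t)
    (hk : (t + k * s)^d < (k+1) * Q.card) (S : Finset ℤ)
    (hS : ∀ N ∈ S, N ≠ 0 ∧ ∃ v : Fin d → ℤ, (∀ i, 0 ≤ v i ∧ v i ≤ s) ∧ nsq v = N) :
    S.card ≤ k * (sqDists Q).card := by
  classical
  have hcover : S ⊆ (Finset.Icc 1 k).biUnion
      (fun m => S.filter (fun N : ℤ => (m:ℤ)^2 * N ∈ sqDists Q)) := by
    intro N hN
    obtain ⟨hN0, v, hv, hvN⟩ := hS N hN
    have hv0 : nsq v ≠ 0 := by rw [hvN]; exact hN0
    obtain ⟨m, hm1, hmk, hm⟩ := exists_multiple t k s Q hQ hk v hv hv0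
    rw [Finset.mem_biUnion]
    refine ⟨m, Finset.mem_Icc.mpr ⟨hm1, hmk⟩, ?_⟩
    rw [Finset.mem_filter]
    refine ⟨hN, ?_⟩
    rw [← hvN]; exact hm
  have h1 : S.card ≤ ∑ m ∈ Finset.Icc 1 k,
      (S.filter (fun N : ℤ => (m:ℤ)^2 * N ∈ sqDists Q)).card :=
    (Finset.card_le_card hcover).trans Finset.card_biUnion_le
  have h2 : ∀ m ∈ Finset.Icc 1 k,
      (S.filter (fun N : ℤ => (m:ℤ)^2 * N ∈ sqDists Q)).card ≤ (sqDists Q).card := by
    intro m hm
    rw [Finset.mem_Icc] at hm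
    apply Finset.card_le_card_of_injOn (fun N : ℤ => (m:ℤ)^2 * N)
    · intro N hN
      have := (Finset.mem_filter.mp hN).2
      exact this
    · intro N1 _ N2 _ h
      simp only at h
      have hm0 : ((m:ℤ)^2) ≠ 0 := by
        have : 0 < m := hm.1
        positivity
      exact mul_left_cancel₀ hm0 h
  have h3 := h1.trans (Finset.sum_le_sum h2)
  simpa using h3
lemma nsq_nonneg {d : ℕ} (v : Fin d → ℤ) : 0 ≤ nsq v :=
  Finset.sum_nonneg (fun _ _ => sq_nonneg _)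

/-- embedding of integer vectors in Euclidean space -/
noncomputable def emb {d : ℕ} (v : Fin d → ℤ) : EuclideanSpace ℝ (Fin d) :=
  WithLp.toLp 2 (fun i => (v i : ℝ))

lemma emb_injective {d : ℕ} : Function.Injective (emb (d := d)) := by
  intro v w h
  funext i
  have : (emb v) i = (emb w) i := by rw [h]
  simp only [emb] at this
  exact_mod_cast this

lemma dist_emb {d : ℕ} (v w : Fin d → ℤ) : dist (emb v) (emb w) = Real.sqrt (nsq (v - w) : ℝ) := by
  rw [EuclideanSpace.dist_eq]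
  congr 1
  unfold nsq
  push_cast
  refine Finset.sum_congr rfl (fun i _ => ?_)
  simp only [emb, Real.dist_eq, sq_abs, Pi.sub_apply]
  push_cast
  ring

/-- transfer from a grid subset of Euclidean space to integer vectors. -/
lemma transfer {d : ℕ} (t : ℕ) (P : Finset (EuclideanSpace ℝ (Fin d)))
    (hgrid : ∀ p ∈ P, ∀ i, ∃ k : ℕ, 1 ≤ k ∧ k ≤ t ∧ p i = k) :
    ∃ Q : Finset (Fin d → ℤ), (∀ p ∈ Q, ∀ i, 1 ≤ p i ∧ p i ≤ t) ∧ Q.card = P.card ∧
      (sqDists Q).card ≤ (P.offDiag.image (fun pq => dist pq.1 pq.2)).card := by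
  classical
  set Q : Finset (Fin d → ℤ) :=
    (Fintype.piFinset (fun _ => Finset.Icc (1:ℤ) t)).filter (fun v => emb v ∈ P) with hQ
  have himg : Q.image emb = P := by
    apply Finset.Subset.antisymm
    · intro p hp
      rw [Finset.mem_image] at hp
      obtain ⟨v, hv, rfl⟩ := hp
      exact (Finset.mem_filter.mp hv).2
    · intro p hp
      choose k hk using hgrid p hp
      rw [Finset.mem_image]
      have hpe : emb (fun i => (k i : ℤ)) = p := by
        ext i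
        simp only [emb]
        rw [(hk i).2.2]
        push_cast
        rfl
      refine ⟨fun i => (k i : ℤ), ?_, hpe⟩
      rw [hQ, Finset.mem_filter, Fintype.mem_piFinset]
      refine ⟨fun i => ?_, by rw [hpe]; exact hp⟩
      rw [Finset.mem_Icc]
      exact ⟨by exact_mod_cast (hk i).1, by exact_mod_cast (hk i).2.1⟩
  refine ⟨Q, ?_, ?_, ?_⟩
  · intro p hp i
    have := (Finset.mem_filter.mp hp).1
    rw [Fintype.mem_piFinset] at this
    exact Finset.mem_Icc.mp (this i)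
  · rw [← himg, Finset.card_image_of_injective _ emb_injective]
  · apply Finset.card_le_card_of_injOn (fun N : ℤ => Real.sqrt (N:ℝ))
    · intro N hN
      have hN' : N ∈ sqDists Q := hN
      unfold sqDists at hN'
      rw [Finset.mem_image] at hN'
      obtain ⟨⟨v, w⟩, hvw, rfl⟩ := hN'
      rw [Finset.mem_offDiag] at hvw
      simp only at hvw
      show Real.sqrt _ ∈ _
      simp only [Finset.coe_image, Set.mem_image, Finset.mem_coe]
      refine ⟨(emb v, emb w), ?_, dist_emb v w⟩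
      rw [Finset.mem_offDiag]
      refine ⟨?_, ?_, fun h => hvw.2.2 (emb_injective h)⟩
      · rw [← himg]; exact Finset.mem_image_of_mem _ hvw.1
      · rw [← himg]; exact Finset.mem_image_of_mem _ hvw.2.1
    · intro N1 h1 N2 h2 h
      have hnn : ∀ N ∈ sqDists Q, (0:ℝ) ≤ (N:ℝ) := by
        intro N hN
        unfold sqDists at hN
        rw [Finset.mem_image] at hN
        obtain ⟨pq, _, rfl⟩ := hN
        exact_mod_cast nsq_nonneg _
      simp only at h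
      have := (Real.sqrt_inj (hnn N1 h1) (hnn N2 h2)).mp h
      exact_mod_cast this



lemma one_add_pow_le_two (d : ℕ) (hd : 1 ≤ d) : (1 + 1/(2*(d:ℝ)))^d ≤ 2 := by
  have hd' : (1:ℝ) ≤ d := by exact_mod_cast hd
  set x : ℝ := 1/(2*(d:ℝ)) with hx
  have hx0 : 0 < x := by positivity
  have hx1 : x ≤ 1/2 := by
    rw [hx, div_le_div_iff₀ (by positivity) (by norm_num)]
    linarith
  have hdx : (d:ℝ) * x = 1/2 := by
    rw [hx]; field_simp
  have h1 : 1 + (d:ℝ) * (-x) ≤ (1 + (-x))^d := one_add_mul_le_pow (by linarith) d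
  have h2 : (1/2:ℝ) ≤ (1 - x)^d := by
    have : 1 + (d:ℝ) * (-x) = 1/2 := by linarith
    rw [this] at h1
    simpa [sub_eq_add_neg] using h1
  have h3 : (1 + x)^d * (1 - x)^d ≤ 1 := by
    rw [← mul_pow]
    apply pow_le_one₀
    · nlinarith
    · nlinarith
  have h4 : 0 ≤ (1 + x)^d := by positivity
  nlinarith

/-- the pigeonhole hypothesis holds for `k = ⌈2/δ⌉`, `s = t/(2dk)`. -/
lemma pigeon_hyp (d t : ℕ) (hd : 1 ≤ d) (ht : 1 ≤ t) (δ : ℝ) (hδ : 0 < δ) (n : ℕ)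
    (hn : δ * (t:ℝ)^d ≤ n) (k s : ℕ) (hk : k = ⌈2/δ⌉₊) (hs : s = t/(2*d*k)) :
    (t + k * s)^d < (k+1) * n := by
  have hd' : (1:ℝ) ≤ d := by exact_mod_cast hd
  have ht' : (1:ℝ) ≤ t := by exact_mod_cast ht
  have hk1 : 2/δ ≤ (k:ℝ) := by rw [hk]; exact Nat.le_ceil _
  have hk0 : (0:ℝ) < k := lt_of_lt_of_le (by positivity) hk1
  have hks : (k:ℝ) * s ≤ t/(2*d) := by
    have h1 : (s:ℝ) ≤ (t:ℝ)/((2*d*k : ℕ):ℝ) := by rw [hs]; exact Nat.cast_div_le
    push_cast at h1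
    calc (k:ℝ) * s ≤ k * ((t:ℝ)/(2*d*k)) := by gcongr
      _ = t/(2*d) := by field_simp
  have h1 : ((t:ℝ) + k*s)^d ≤ 2 * (t:ℝ)^d := by
    calc ((t:ℝ) + k*s)^d ≤ ((t:ℝ) * (1 + 1/(2*(d:ℝ))))^d := by
          gcongr
          have : (t:ℝ) * (1 + 1/(2*(d:ℝ))) = t + t/(2*d) := by field_simp
          rw [this]; linarith
      _ = (t:ℝ)^d * (1 + 1/(2*(d:ℝ)))^d := by rw [mul_pow]
      _ ≤ (t:ℝ)^d * 2 := by gcongr; exact one_add_pow_le_two d hd
      _ = 2 * (t:ℝ)^d := by ring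
  have h2 : 2 * (t:ℝ)^d < ((k:ℝ)+1) * n := by
    have htd : 0 < (t:ℝ)^d := by positivity
    have h3 : 2 ≤ (k:ℝ) * δ := by
      rw [div_le_iff₀ hδ] at hk1; exact hk1
    calc 2 * (t:ℝ)^d ≤ (k:ℝ) * δ * (t:ℝ)^d := by gcongr
      _ < ((k:ℝ)+1) * (δ * (t:ℝ)^d) := by nlinarith [mul_pos hδ htd]
      _ ≤ ((k:ℝ)+1) * n := by gcongr
  have h3 : (((t + k * s)^d : ℕ) : ℝ) < (((k+1) * n : ℕ) : ℝ) := by
    push_cast
    linarith
  exact_mod_cast h3

lemma numeric (d t : ℕ) (hd : 1 ≤ d) (δ : ℝ) (hδ : 0 < δ) (hδ1 : δ ≤ 1) (D : ℕ) (hD : 1 ≤ D)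
    (κ : ℝ) (hκ : 1 ≤ κ) (k s : ℕ) (hk : k = ⌈2/δ⌉₊) (hs : s = t/(2*d*k))
    (h : (s:ℝ)^2 ≤ κ * (k * D)) : δ^3/(432*κ*d^2) * (t:ℝ)^2 ≤ D := by
  have hd' : (1:ℝ) ≤ d := by exact_mod_cast hd
  have hD' : (1:ℝ) ≤ D := by exact_mod_cast hD
  have hk1 : 2/δ ≤ (k:ℝ) := by rw [hk]; exact Nat.le_ceil _
  have hk0 : (0:ℝ) < k := lt_of_lt_of_le (by positivity) hk1
  have hk2 : (k:ℝ) ≤ 3/δ := by
    have : (k:ℝ) < 2/δ + 1 := by rw [hk]; exact Nat.ceil_lt_add_one (by positivity)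
    have h1 : (1:ℝ) ≤ 1/δ := by rw [le_div_iff₀ hδ]; linarith
    have : 3/δ = 2/δ + 1/δ := by ring
    linarith
  have hkδ : (k:ℝ) * δ ≤ 3 := by rw [le_div_iff₀ hδ] at hk2; exact hk2
  have hkδ0 : 0 < (k:ℝ) * δ := by positivity
  have ht0 : (0:ℝ) ≤ t := by positivity
  rw [div_mul_eq_mul_div, div_le_iff₀ (by positivity)]
  by_cases hcase : 4 * (d:ℝ) * k ≤ t
  · -- s ≥ t/(4dk)
    have hpos : 0 < 2*d*k := by
      have : 0 < k := by exact_mod_cast hk0
      positivity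
    have h1 : t < (s+1) * (2*d*k) := by
      rw [hs]
      have := Nat.lt_succ_iff.mpr (le_refl (t/(2*d*k)))
      exact (Nat.div_lt_iff_lt_mul hpos).mp this
    have h1' : (t:ℝ) < ((s:ℝ)+1) * (2*d*k) := by exact_mod_cast h1
    have h2 : (t:ℝ) ≤ (s:ℝ) * (4*d*k) := by nlinarith
    have hs0 : (0:ℝ) ≤ s := by positivity
    have h3 : (t:ℝ)^2 ≤ (s:ℝ)^2 * (4*d*k)^2 := by
      rw [← mul_pow]; gcongr
    have h4 : δ^3 * (t:ℝ)^2 ≤ δ^3 * (κ * (k * D) * (4*d*k)^2) := by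
      gcongr
      calc (t:ℝ)^2 ≤ (s:ℝ)^2 * (4*d*k)^2 := h3
        _ ≤ κ * (k * D) * (4*d*k)^2 := by gcongr
    have h5 : δ^3 * (κ * (k * D) * (4*d*k)^2) = ((k:ℝ)*δ)^3 * (16 * κ * d^2 * D) := by ring
    have h6 : ((k:ℝ)*δ)^3 ≤ 27 := by
      calc ((k:ℝ)*δ)^3 ≤ 3^3 := by gcongr
        _ = 27 := by norm_num
    calc δ^3 * (t:ℝ)^2 ≤ ((k:ℝ)*δ)^3 * (16 * κ * d^2 * D) := by rw [← h5]; exact h4
      _ ≤ 27 * (16 * κ * d^2 * D) := by gcongr
      _ = D * (432 * κ * d^2) := by ring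
  · rw [not_le] at hcase
    have h1 : (t:ℝ)^2 ≤ (4 * (d:ℝ) * k)^2 := by gcongr
    have h2 : ((k:ℝ)*δ)^2 ≤ 9 := by
      calc ((k:ℝ)*δ)^2 ≤ 3^2 := by gcongr
        _ = 9 := by norm_num
    calc δ^3 * (t:ℝ)^2 ≤ δ^3 * (4 * (d:ℝ) * k)^2 := by gcongr
      _ = δ * ((k:ℝ)*δ)^2 * (16 * d^2) := by ring
      _ ≤ 1 * 9 * (16 * d^2) := by gcongr
      _ ≤ 1 * (432 * 1 * d^2) := by nlinarith [sq_nonneg (d:ℝ)]
      _ ≤ D * (432 * κ * d^2) := by gcongr


/-- General statement: if the box `{0..s}^d` carries at least `s^2/κ` distinct nonzero squared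
norms for every `s`, then dense subsets of the grid have many distinct distances. -/
theorem dense_grid_general (d : ℕ) (hd : 1 ≤ d) (κ : ℝ) (hκ : 1 ≤ κ)
    (rich : ∀ s : ℕ, ∃ S : Finset ℤ,
      (∀ N ∈ S, N ≠ 0 ∧ ∃ v : Fin d → ℤ, (∀ i, 0 ≤ v i ∧ v i ≤ s) ∧ nsq v = N) ∧
      (s:ℝ)^2 ≤ κ * S.card)
    (δ : ℝ) (hδ : 0 < δ) (t : ℕ)
    (P : Finset (EuclideanSpace ℝ (Fin d)))
    (hgrid : ∀ p ∈ P, ∀ i, ∃ k : ℕ, 1 ≤ k ∧ k ≤ t ∧ p i = k)
    (hdense : δ * (t:ℝ)^d ≤ P.card) (h2 : 2 ≤ P.card) :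
    δ^3 / (432 * κ * d^2) * (t:ℝ)^2 ≤ ((P.offDiag.image (fun pq => dist pq.1 pq.2)).card : ℝ) ∧
    δ^3 / (432 * κ * d^2) * (P.card : ℝ)^((2:ℝ)/d) ≤
      ((P.offDiag.image (fun pq => dist pq.1 pq.2)).card : ℝ) := by
  classical
  obtain ⟨Q, hQ, hQcard, hQD⟩ := transfer t P hgrid
  have hd' : (1:ℝ) ≤ d := by exact_mod_cast hd
  -- t ≥ 1
  have ht : 1 ≤ t := by
    have hne : P.Nonempty := Finset.card_pos.mp (by omega)
    obtain ⟨p, hp⟩ := hne
    obtain ⟨k, hk1, hk2, _⟩ := hgrid p hp ⟨0, by omega⟩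
    omega
  have ht' : (1:ℝ) ≤ t := by exact_mod_cast ht
  -- |P| ≤ t^d
  have hcard : P.card ≤ t^d := by
    rw [← hQcard]
    have hsub : Q ⊆ Fintype.piFinset (fun _ : Fin d => Finset.Icc (1:ℤ) t) := by
      intro p hp
      rw [Fintype.mem_piFinset]
      intro i
      exact Finset.mem_Icc.mpr (hQ p hp i)
    have := Finset.card_le_card hsub
    rw [Fintype.card_piFinset] at this
    simpa using this
  have hcard' : (P.card : ℝ) ≤ (t:ℝ)^d := by exact_mod_cast hcard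
  have htd : 0 < (t:ℝ)^d := by positivity
  have hδ1 : δ ≤ 1 := by
    by_contra hcon
    have hcon' : 1 < δ := not_le.mp hcon
    nlinarith
  -- at least one distance
  have hD : 1 ≤ (sqDists Q).card := by
    have h1 : 1 < Q.card := by omega
    obtain ⟨a, ha, b, hb, hab⟩ := Finset.one_lt_card.mp h1
    apply Finset.card_pos.mpr
    refine ⟨nsq (a - b), ?_⟩
    unfold sqDists
    rw [Finset.mem_image]
    exact ⟨(a, b), Finset.mem_offDiag.mpr ⟨ha, hb, hab⟩, rfl⟩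
  set k : ℕ := ⌈2/δ⌉₊ with hk
  set s : ℕ := t/(2*d*k) with hs
  have hpig : (t + k * s)^d < (k+1) * Q.card :=
    pigeon_hyp d t hd ht δ hδ Q.card (by rw [hQcard]; exact hdense) k s hk hs
  obtain ⟨S, hS, hScard⟩ := rich s
  have hcount := card_le_mul_card t k s Q hQ hpig S hS
  have hcount' : (S.card : ℝ) ≤ (k:ℝ) * (sqDists Q).card := by exact_mod_cast hcount
  have hmain : (s:ℝ)^2 ≤ κ * ((k:ℝ) * (sqDists Q).card) := by
    calc (s:ℝ)^2 ≤ κ * S.card := hScard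
      _ ≤ κ * ((k:ℝ) * (sqDists Q).card) := by gcongr
  have hnum := numeric d t hd δ hδ hδ1 (sqDists Q).card hD κ hκ k s hk hs hmain
  have hQD' : ((sqDists Q).card : ℝ) ≤ ((P.offDiag.image (fun pq => dist pq.1 pq.2)).card : ℝ) := by
    exact_mod_cast hQD
  have hfirst := hnum.trans hQD'
  refine ⟨hfirst, le_trans ?_ hfirst⟩
  have hpow : (P.card : ℝ)^((2:ℝ)/d) ≤ (t:ℝ)^2 := by
    calc (P.card : ℝ)^((2:ℝ)/d) ≤ ((t:ℝ)^d)^((2:ℝ)/d) := by
          apply Real.rpow_le_rpow (by positivity) hcard' (by positivity)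
      _ = (t:ℝ)^2 := by
          rw [← Real.rpow_natCast (t:ℝ) d, ← Real.rpow_mul (by positivity)]
          have : (d:ℝ) * ((2:ℝ)/d) = (2:ℕ) := by
            push_cast
            field_simp
          rw [this, Real.rpow_natCast]
  gcongr

end Vale.Agent.Lib.P054
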