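import Mathlib
import Vale.Agent.Lib.P054.Grid

/-!
# P054: a positive proportion of the integers up to `s^2` are sums of three squares of `{0..s}`

Elementary additive-energy argument: the number of solutions of `u·v = 0` in the box `[-T,T]^6`
is `O(T^4)`, hence (Cauchy-Schwarz) `x^2+y^2+z^2` takes at least `s^2/7901` distinct nonzero values
on `{0..s}^3`.
-/

open Finset

namespace Vale.Agent.Lib.P054


/-- A set of integers in `[-T,T]`, pairwise congruent mod `k`, has at most `2T/k+1` elements. -/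
lemma card_le_of_modEq (T k : ℕ) (hk : 0 < k) (S : Finset ℤ)
    (hS : ∀ x ∈ S, -(T:ℤ) ≤ x ∧ x ≤ T) (hmod : ∀ x ∈ S, ∀ y ∈ S, (k:ℤ) ∣ x - y) :
    S.card ≤ 2*T/k + 1 := by
  rcases S.eq_empty_or_nonempty with rfl | hne
  · simp
  set x0 := S.min' hne with hx0
  have hx0S : x0 ∈ S := S.min'_mem hne
  have hk' : (0:ℤ) < k := by exact_mod_cast hk
  have : S.card ≤ (Finset.range (2*T/k + 1)).card := by
    apply Finset.card_le_card_of_injOn (fun x => ((x - x0) / k).toNat)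
    · intro x hx
      have hx' : x ∈ S := hx
      simp only [Finset.coe_range, Set.mem_Iio]
      have h1 : x0 ≤ x := S.min'_le x hx'
      have h2 : x - x0 ≤ 2*T := by
        have := (hS x hx').2; have := (hS x0 hx0S).1; linarith
      have h3 : (x - x0) / k ≤ (2*T : ℤ) / k := Int.ediv_le_ediv hk' h2
      have h4 : 0 ≤ (x - x0) / k := Int.ediv_nonneg (by linarith) hk'.le
      have h5 : ((2*T/k : ℕ) : ℤ) = (2*T : ℤ) / k := by push_cast; rfl
      omega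
    · intro x hx y hy hxy
      have hx' : x ∈ S := hx
      have hy' : y ∈ S := hy
      simp only at hxy
      have h1 : x0 ≤ x := S.min'_le x hx'
      have h2 : x0 ≤ y := S.min'_le y hy'
      have h3 : 0 ≤ (x - x0) / k := Int.ediv_nonneg (by linarith) hk'.le
      have h4 : 0 ≤ (y - x0) / k := Int.ediv_nonneg (by linarith) hk'.le
      have h5 : (x - x0) / k = (y - x0) / k := by omega
      have h6 := Int.ediv_mul_cancel (hmod x hx' x0 hx0S)
      have h7 := Int.ediv_mul_cancel (hmod y hy' x0 hx0S)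
      rw [h5] at h6
      linarith
  simpa using this

/-- if `m ∣ a * d` then `m / gcd(a,m) ∣ d`. -/
lemma div_gcd_dvd (m : ℕ) (hm : 0 < m) (a d : ℤ) (h : (m:ℤ) ∣ a * d) :
    ((m / Int.gcd a m : ℕ) : ℤ) ∣ d := by
  set g := Int.gcd a m with hg
  have hgpos : 0 < g := Int.gcd_pos_of_ne_zero_right a (by exact_mod_cast hm.ne')
  have hgm : g ∣ m := by
    have := Int.gcd_dvd_right a (m:ℤ)
    exact_mod_cast this
  obtain ⟨m', hm'⟩ := hgm
  have hga : (g:ℤ) ∣ a := Int.gcd_dvd_left a (m:ℤ)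
  obtain ⟨a', ha'⟩ := hga
  have hdiv : m / g = m' := by rw [hm']; exact Nat.mul_div_cancel_left m' hgpos
  rw [hdiv]
  have hcop : IsCoprime (m':ℤ) a' := by
    rw [Int.isCoprime_iff_gcd_eq_one]
    have h1 : Int.gcd a m = g * Int.gcd a' m' := by
      rw [ha', hm']
      push_cast
      rw [Int.gcd_mul_left]
      simp
    rw [← hg] at h1
    have h2 : Int.gcd a' m' = 1 := by
      have : g * Int.gcd a' m' = g * 1 := by omega
      exact Nat.eq_of_mul_eq_mul_left hgpos this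
    rw [Int.gcd_comm]; exact h2
  have h3 : (m':ℤ) ∣ a' * d := by
    rw [ha', hm'] at h
    push_cast at h
    rw [mul_assoc] at h
    exact (mul_dvd_mul_iff_left (by exact_mod_cast hgpos.ne')).mp h
  exact hcop.dvd_of_dvd_mul_left h3

lemma card_solutions_le (T m : ℕ) (hm : 0 < m) (a c : ℤ) :
    ((Finset.Icc (-(T:ℤ)) T).filter (fun x => (m:ℤ) ∣ a*x + c)).card
      ≤ 2*T/(m / Int.gcd a m) + 1 := by
  have hgpos : 0 < Int.gcd a m := Int.gcd_pos_of_ne_zero_right a (by exact_mod_cast hm.ne')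
  have hgm : Int.gcd a m ∣ m := by
    have := Int.gcd_dvd_right a (m:ℤ)
    exact_mod_cast this
  have hk : 0 < m / Int.gcd a m := Nat.div_pos (Nat.le_of_dvd hm hgm) hgpos
  apply card_le_of_modEq T _ hk
  · intro x hx
    exact Finset.mem_Icc.mp (Finset.mem_filter.mp hx).1
  · intro x hx y hy
    have h1 := (Finset.mem_filter.mp hx).2
    have h2 := (Finset.mem_filter.mp hy).2
    apply div_gcd_dvd m hm a
    have : a * (x - y) = (a*x + c) - (a*y + c) := by ring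
    rw [this]
    exact dvd_sub h1 h2




/-- number of multiples of `k` in `[-T,T]` -/
lemma card_multiples_le (T k : ℕ) (hk : 0 < k) :
    ((Finset.Icc (-(T:ℤ)) T).filter (fun x => (k:ℤ) ∣ x)).card ≤ 2*T/k + 1 := by
  apply card_le_of_modEq T k hk
  · intro x hx
    exact Finset.mem_Icc.mp (Finset.mem_filter.mp hx).1
  · intro x hx y hy
    exact dvd_sub (Finset.mem_filter.mp hx).2 (Finset.mem_filter.mp hy).2

/-- the triple gcd -/
def gcd3 (a b : ℤ) (m : ℕ) : ℕ := Int.gcd b (Int.gcd a m)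

/-- pairs `(x,y)` in the box with `m ∣ a x + b y`. -/
lemma card_pairs_le (T m : ℕ) (hm : 0 < m) (a b : ℤ) :
    (((Finset.Icc (-(T:ℤ)) T) ×ˢ (Finset.Icc (-(T:ℤ)) T)).filter
      (fun p => (m:ℤ) ∣ a*p.1 + b*p.2)).card
      ≤ (2*T/(Int.gcd a m / gcd3 a b m) + 1) * (2*T/(m / Int.gcd a m) + 1) := by
  classical
  set I := Finset.Icc (-(T:ℤ)) T with hI
  set ga := Int.gcd a m with hga
  have hgapos : 0 < ga := Int.gcd_pos_of_ne_zero_right a (by exact_mod_cast hm.ne')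
  set A := (I ×ˢ I).filter (fun p => (m:ℤ) ∣ a*p.1 + b*p.2) with hA
  set p := ga / gcd3 a b m with hp
  set Y := I.filter (fun y => (p:ℤ) ∣ y) with hY
  have hg3pos : 0 < gcd3 a b m := Int.gcd_pos_of_ne_zero_right b (by exact_mod_cast hgapos.ne')
  have hg3dvd : gcd3 a b m ∣ ga := by
    have := Int.gcd_dvd_right b (ga:ℤ)
    exact_mod_cast this
  have hppos : 0 < p := Nat.div_pos (Nat.le_of_dvd hgapos hg3dvd) hg3pos
  have hmaps : ∀ q ∈ A, q.2 ∈ Y := by
    intro q hq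
    rw [hA, Finset.mem_filter, Finset.mem_product] at hq
    rw [hY, Finset.mem_filter]
    refine ⟨hq.1.2, ?_⟩
    -- ga ∣ b * q.2
    have h1 : (ga:ℤ) ∣ (m:ℤ) := Int.gcd_dvd_right a (m:ℤ)
    have h2 : (ga:ℤ) ∣ a := Int.gcd_dvd_left a (m:ℤ)
    have h3 : (ga:ℤ) ∣ b * q.2 := by
      have h4 : (ga:ℤ) ∣ a*q.1 + b*q.2 := h1.trans hq.2
      have h5 : (ga:ℤ) ∣ a*q.1 := Dvd.dvd.mul_right h2 _
      exact (Int.dvd_add_right h5).mp h4
    exact div_gcd_dvd ga hgapos b q.2 h3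
  have hcard := Finset.card_eq_sum_card_fiberwise hmaps
  rw [hcard]
  have hfib : ∀ y ∈ Y, (A.filter (fun q => q.2 = y)).card ≤ 2*T/(m / ga) + 1 := by
    intro y _
    refine le_trans ?_ (card_solutions_le T m hm a (b*y))
    apply Finset.card_le_card_of_injOn (fun q => q.1)
    · intro q hq
      have hq' := Finset.mem_filter.mp hq
      have hq'' := Finset.mem_filter.mp hq'.1
      simp only [Finset.coe_filter, Set.mem_ofPred_eq]
      refine ⟨(Finset.mem_product.mp hq''.1).1, ?_⟩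
      rw [← hq'.2]; exact hq''.2
    · intro q1 h1 q2 h2 h12
      have e1 := (Finset.mem_filter.mp h1).2
      have e2 := (Finset.mem_filter.mp h2).2
      exact Prod.ext h12 (e1.trans e2.symm)
  calc ∑ y ∈ Y, (A.filter (fun q => q.2 = y)).card ≤ ∑ _y ∈ Y, (2*T/(m / ga) + 1) :=
        Finset.sum_le_sum hfib
    _ = Y.card * (2*T/(m / ga) + 1) := by rw [Finset.sum_const, smul_eq_mul]
    _ ≤ (2*T/p + 1) * (2*T/(m / ga) + 1) := by
        apply Nat.mul_le_mul_right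
        exact card_multiples_le T p hppos





lemma two_mul_div_add_one_le (T k : ℕ) (hk : 0 < k) (hkT : k ≤ T) :
    ((2*T/k + 1 : ℕ) : ℝ) ≤ 3 * T / k := by
  have hk' : (0:ℝ) < k := by exact_mod_cast hk
  have h1 : ((2*T/k : ℕ) : ℝ) ≤ ((2*T : ℕ):ℝ) / k := Nat.cast_div_le
  have h2 : (1:ℝ) ≤ T / k := by
    rw [le_div_iff₀ hk']; simpa using (by exact_mod_cast hkT : (k:ℝ) ≤ T)
  push_cast at h1 ⊢
  have : 3 * (T:ℝ) / k = 2 * T / k + T / k := by ring
  linarith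

lemma card_pairs_real (T m : ℕ) (hm : 0 < m) (hmT : m ≤ T) (a b : ℤ) :
    ((((Finset.Icc (-(T:ℤ)) T) ×ˢ (Finset.Icc (-(T:ℤ)) T)).filter
      (fun p => (m:ℤ) ∣ a*p.1 + b*p.2)).card : ℝ) ≤ 9 * (T:ℝ)^2 * (gcd3 a b m) / m := by
  have h := card_pairs_le T m hm a b
  set ga := Int.gcd a m with hga
  have hgapos : 0 < ga := Int.gcd_pos_of_ne_zero_right a (by exact_mod_cast hm.ne')
  have hgam : ga ∣ m := by
    have := Int.gcd_dvd_right a (m:ℤ)
    exact_mod_cast this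
  have hg3pos : 0 < gcd3 a b m := Int.gcd_pos_of_ne_zero_right b (by exact_mod_cast hgapos.ne')
  have hg3dvd : gcd3 a b m ∣ ga := by
    have := Int.gcd_dvd_right b (ga:ℤ)
    exact_mod_cast this
  set g3 := gcd3 a b m with hg3
  obtain ⟨p, hp⟩ := hg3dvd
  obtain ⟨k, hk⟩ := hgam
  have hdiv1 : ga / g3 = p := by rw [hp]; exact Nat.mul_div_cancel_left p hg3pos
  have hdiv2 : m / ga = k := by rw [hk]; exact Nat.mul_div_cancel_left k hgapos
  rw [hdiv1, hdiv2] at h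
  have hppos : 0 < p := by
    rcases Nat.eq_zero_or_pos p with h0 | h0
    · rw [h0] at hp; omega
    · exact h0
  have hkpos : 0 < k := by
    rcases Nat.eq_zero_or_pos k with h0 | h0
    · rw [h0] at hk; omega
    · exact h0
  have hpT : p ≤ T := by
    have : p ≤ ga := by rw [hp]; exact Nat.le_mul_of_pos_left p hg3pos
    have : ga ≤ m := by rw [hk]; exact Nat.le_mul_of_pos_right ga hkpos
    omega
  have hkT : k ≤ T := by
    have : k ≤ m := by rw [hk]; exact Nat.le_mul_of_pos_left k hgapos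
    omega
  have h1 := two_mul_div_add_one_le T p hppos hpT
  have h2 := two_mul_div_add_one_le T k hkpos hkT
  have hm' : (m:ℝ) = g3 * p * k := by rw [hk, hp]; push_cast; ring
  have hp' : (0:ℝ) < p := by exact_mod_cast hppos
  have hk' : (0:ℝ) < k := by exact_mod_cast hkpos
  have hg' : (0:ℝ) < g3 := by exact_mod_cast hg3pos
  calc ((((Finset.Icc (-(T:ℤ)) T) ×ˢ (Finset.Icc (-(T:ℤ)) T)).filter
      (fun p => (m:ℤ) ∣ a*p.1 + b*p.2)).card : ℝ)
      ≤ (((2*T/p + 1) * (2*T/k + 1) : ℕ) : ℝ) := by exact_mod_cast h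
    _ = ((2*T/p + 1 : ℕ) : ℝ) * ((2*T/k + 1 : ℕ) : ℝ) := by push_cast; ring
    _ ≤ (3 * T / p) * (3 * T / k) := by gcongr
    _ = 9 * (T:ℝ)^2 * g3 / m := by
        rw [hm']; field_simp; ring

lemma sum_gcd3_le (m : ℕ) (hm : 0 < m) :
    ∑ a ∈ Finset.Icc (-(m:ℤ)) m, ∑ b ∈ Finset.Icc (-(m:ℤ)) m, gcd3 a b m
      ≤ 9 * m * ∑ e ∈ m.divisors, e := by
  classical
  set J := Finset.Icc (-(m:ℤ)) m with hJ
  have h1 : ∀ a b : ℤ, gcd3 a b m ≤ ∑ e ∈ m.divisors,
      (if (e:ℤ) ∣ a then 1 else 0) * (if (e:ℤ) ∣ b then 1 else 0) * e := by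
    intro a b
    have hga : (Int.gcd a m : ℤ) ∣ m := Int.gcd_dvd_right a (m:ℤ)
    have hg1 : ((gcd3 a b m : ℕ) : ℤ) ∣ (Int.gcd a m : ℤ) := Int.gcd_dvd_right b _
    have hgm : gcd3 a b m ∣ m := by exact_mod_cast hg1.trans hga
    have hga' : ((gcd3 a b m : ℕ) : ℤ) ∣ a := hg1.trans (Int.gcd_dvd_left a (m:ℤ))
    have hgb : ((gcd3 a b m : ℕ) : ℤ) ∣ b := Int.gcd_dvd_left b _
    have hmem : gcd3 a b m ∈ m.divisors := Nat.mem_divisors.mpr ⟨hgm, hm.ne'⟩
    have := Finset.single_le_sum (f := fun e : ℕ =>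
      (if (e:ℤ) ∣ a then 1 else 0) * (if (e:ℤ) ∣ b then 1 else 0) * e)
      (fun e _ => Nat.zero_le _) hmem
    simp only [hga', hgb, if_true, one_mul] at this
    exact this
  calc ∑ a ∈ J, ∑ b ∈ J, gcd3 a b m
      ≤ ∑ a ∈ J, ∑ b ∈ J, ∑ e ∈ m.divisors,
        (if (e:ℤ) ∣ a then 1 else 0) * (if (e:ℤ) ∣ b then 1 else 0) * e :=
        Finset.sum_le_sum (fun a _ => Finset.sum_le_sum (fun b _ => h1 a b))
    _ = ∑ e ∈ m.divisors, (J.filter (fun x => (e:ℤ) ∣ x)).card *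
          (J.filter (fun x => (e:ℤ) ∣ x)).card * e := by
        have : ∀ a ∈ J, ∑ b ∈ J, ∑ e ∈ m.divisors,
            (if (e:ℤ) ∣ a then 1 else 0) * (if (e:ℤ) ∣ b then 1 else 0) * e
            = ∑ e ∈ m.divisors, ∑ b ∈ J,
            (if (e:ℤ) ∣ a then 1 else 0) * (if (e:ℤ) ∣ b then 1 else 0) * e :=
          fun a _ => Finset.sum_comm
        rw [Finset.sum_congr rfl this, Finset.sum_comm]
        refine Finset.sum_congr rfl (fun e _ => ?_)
        rw [Finset.card_filter, Finset.sum_mul_sum, Finset.sum_mul]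
        refine Finset.sum_congr rfl (fun a _ => ?_)
        rw [Finset.sum_mul]
    _ ≤ ∑ e ∈ m.divisors, 9 * m * (m / e) := by
        refine Finset.sum_le_sum (fun e he => ?_)
        have hem : e ∣ m := Nat.dvd_of_mem_divisors he
        have hepos : 0 < e := Nat.pos_of_mem_divisors he
        have hc : (J.filter (fun x => (e:ℤ) ∣ x)).card ≤ 2*m/e + 1 := card_multiples_le m e hepos
        have hmul : e * (m / e) = m := Nat.mul_div_cancel' hem
        have hkpos : 0 < m / e := Nat.div_pos (Nat.le_of_dvd hm hem) hepos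
        rw [Nat.mul_div_assoc 2 hem] at hc
        have hc' : (J.filter (fun x => (e:ℤ) ∣ x)).card ≤ 3 * (m / e) := by omega
        calc (J.filter (fun x => (e:ℤ) ∣ x)).card * (J.filter (fun x => (e:ℤ) ∣ x)).card * e
            ≤ (3*(m/e)) * (3*(m/e)) * e := by gcongr
          _ = 9 * (e * (m/e)) * (m/e) := by ring
          _ = 9 * m * (m/e) := by rw [hmul]
    _ = 9 * m * ∑ e ∈ m.divisors, e := by
        rw [← Finset.mul_sum]
        congr 1
        exact Nat.sum_div_divisors m (fun e => e)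

lemma sum_sigma_le (T : ℕ) : ∑ m ∈ Finset.Icc 1 T, ∑ e ∈ m.divisors, e ≤ T^2 := by
  classical
  have h1 : ∀ m ∈ Finset.Icc 1 T, ∑ e ∈ m.divisors, e
      = ∑ e ∈ Finset.Icc 1 T, if e ∣ m then e else 0 := by
    intro m hm
    rw [Finset.mem_Icc] at hm
    rw [← Finset.sum_filter]
    apply Finset.sum_congr _ (fun _ _ => rfl)
    ext e
    rw [Nat.mem_divisors, Finset.mem_filter, Finset.mem_Icc]
    constructor
    · rintro ⟨h1, _⟩
      have := Nat.le_of_dvd (by omega) h1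
      have := Nat.pos_of_dvd_of_pos h1 (by omega)
      exact ⟨⟨by omega, by omega⟩, h1⟩
    · rintro ⟨_, h1⟩
      exact ⟨h1, by omega⟩
  rw [Finset.sum_congr rfl h1, Finset.sum_comm]
  have h2 : ∀ e ∈ Finset.Icc 1 T, (∑ m ∈ Finset.Icc 1 T, if e ∣ m then e else 0) ≤ T := by
    intro e he
    rw [Finset.mem_Icc] at he
    rw [← Finset.sum_filter, Finset.sum_const, smul_eq_mul]
    have : (Finset.Icc 1 T).filter (fun m => e ∣ m) = (Finset.Ioc 0 T).filter (fun m => e ∣ m) := by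
      congr 1
    rw [this, Nat.Ioc_filter_dvd_card_eq_div]
    exact Nat.div_mul_le_self T e
  calc ∑ e ∈ Finset.Icc 1 T, (∑ m ∈ Finset.Icc 1 T, if e ∣ m then e else 0)
      ≤ ∑ _e ∈ Finset.Icc 1 T, T := Finset.sum_le_sum h2
    _ = T^2 := by simp [sq]





/-- quadruples `(a,b,x,y)` with `|a|,|b| ≤ m`, `|x|,|y| ≤ T`, `m ∣ a x + b y`. -/
noncomputable def QSet (T m : ℕ) : Finset (ℤ × ℤ × ℤ × ℤ) :=
  ((Finset.Icc (-(m:ℤ)) m) ×ˢ (Finset.Icc (-(m:ℤ)) m) ×ˢ
    (Finset.Icc (-(T:ℤ)) T) ×ˢ (Finset.Icc (-(T:ℤ)) T)).filter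
    (fun q => (m:ℤ) ∣ q.1 * q.2.2.1 + q.2.1 * q.2.2.2)

lemma card_QSet_le (T m : ℕ) (hm : 0 < m) (hmT : m ≤ T) :
    ((QSet T m).card : ℝ) ≤ 81 * (T:ℝ)^2 * ((∑ e ∈ m.divisors, e : ℕ) : ℝ) := by
  classical
  set J := Finset.Icc (-(m:ℤ)) m with hJ
  set I := Finset.Icc (-(T:ℤ)) T with hI
  have h1 : (QSet T m).card = ∑ a ∈ J, ∑ b ∈ J,
      ((I ×ˢ I).filter (fun p => (m:ℤ) ∣ a*p.1 + b*p.2)).card := by
    unfold QSet
    rw [Finset.card_filter, Finset.sum_product]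
    refine Finset.sum_congr rfl (fun a _ => ?_)
    rw [Finset.sum_product]
    refine Finset.sum_congr rfl (fun b _ => ?_)
    rw [Finset.card_filter]
  have hm' : (0:ℝ) < m := by exact_mod_cast hm
  rw [h1]
  push_cast
  calc ∑ a ∈ J, ∑ b ∈ J, (((I ×ˢ I).filter (fun p => (m:ℤ) ∣ a*p.1 + b*p.2)).card : ℝ)
      ≤ ∑ a ∈ J, ∑ b ∈ J, 9 * (T:ℝ)^2 * (gcd3 a b m) / m :=
        Finset.sum_le_sum (fun a _ => Finset.sum_le_sum (fun b _ => card_pairs_real T m hm hmT a b))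
    _ = 9 * (T:ℝ)^2 / m * ((∑ a ∈ J, ∑ b ∈ J, gcd3 a b m : ℕ) : ℝ) := by
        push_cast
        rw [Finset.mul_sum]
        refine Finset.sum_congr rfl (fun a _ => ?_)
        rw [Finset.mul_sum]
        refine Finset.sum_congr rfl (fun b _ => ?_)
        ring
    _ ≤ 9 * (T:ℝ)^2 / m * ((9 * m * ∑ e ∈ m.divisors, e : ℕ) : ℝ) := by
        gcongr
        exact_mod_cast sum_gcd3_le m hm
    _ = 81 * (T:ℝ)^2 * ∑ e ∈ m.divisors, (e:ℝ) := by
        push_cast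
        field_simp
        ring

/-- the set of `(u,v)` in the box with `u·v = 0`, last coordinate of `u` nonzero and dominant. -/
noncomputable def KSet (T : ℕ) : Finset ((ℤ × ℤ × ℤ) × (ℤ × ℤ × ℤ)) :=
  (((Finset.Icc (-(T:ℤ)) T) ×ˢ (Finset.Icc (-(T:ℤ)) T) ×ˢ (Finset.Icc (-(T:ℤ)) T)) ×ˢ
    ((Finset.Icc (-(T:ℤ)) T) ×ˢ (Finset.Icc (-(T:ℤ)) T) ×ˢ (Finset.Icc (-(T:ℤ)) T))).filter
    (fun p => p.1.2.2 ≠ 0 ∧ |p.1.1| ≤ |p.1.2.2| ∧ |p.1.2.1| ≤ |p.1.2.2| ∧
      p.1.1 * p.2.1 + p.1.2.1 * p.2.2.1 + p.1.2.2 * p.2.2.2 = 0)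

lemma card_KSet_le (T : ℕ) : ((KSet T).card : ℝ) ≤ 162 * (T:ℝ)^4 := by
  classical
  have hmaps : ∀ p ∈ KSet T, (p.1.2.2).natAbs ∈ Finset.Icc 1 T := by
    intro p hp
    unfold KSet at hp
    rw [Finset.mem_filter] at hp
    simp only [Finset.mem_product, Finset.mem_Icc] at hp
    rw [Finset.mem_Icc]
    omega
  rw [Finset.card_eq_sum_card_fiberwise hmaps]
  have hfib : ∀ m ∈ Finset.Icc 1 T,
      ((KSet T).filter (fun p => (p.1.2.2).natAbs = m)).card ≤ 2 * (QSet T m).card := by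
    intro m hm
    rw [Finset.mem_Icc] at hm
    have hcard : (({1, -1} : Finset ℤ) ×ˢ (QSet T m)).card = 2 * (QSet T m).card := by
      rw [Finset.card_product]
      congr 1
    rw [← hcard]
    apply Finset.card_le_card_of_injOn
      (fun p => ((p.1.2.2).sign, (p.1.1, p.1.2.1, p.2.1, p.2.2.1)))
    · intro p hp
      have hp1 := Finset.mem_filter.mp hp
      have hp2 := hp1.1
      unfold KSet at hp2
      rw [Finset.mem_filter] at hp2
      simp only [Finset.mem_product, Finset.mem_Icc] at hp2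
      obtain ⟨⟨⟨ha, hb, hc⟩, hx, hy, hz⟩, hc0, hac, hbc, hdot⟩ := hp2
      have hm' : (p.1.2.2).natAbs = m := hp1.2
      have habs : |p.1.2.2| = (m:ℤ) := by rw [← hm']; exact Int.abs_eq_natAbs _
      simp only [Finset.coe_product, Set.mem_prod, Finset.mem_coe]
      constructor
      · simp only [Finset.mem_insert, Finset.mem_singleton]
        rcases lt_or_gt_of_ne hc0 with h | h
        · right; exact Int.sign_eq_neg_one_of_neg h
        · left; exact Int.sign_eq_one_of_pos h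
      · unfold QSet
        rw [Finset.mem_filter]
        simp only [Finset.mem_product, Finset.mem_Icc]
        rw [habs] at hac hbc
        refine ⟨⟨abs_le.mp hac, abs_le.mp hbc, hx, hy⟩, ?_⟩
        have h1 : (m:ℤ) ∣ p.1.2.2 := by rw [← habs]; exact (abs_dvd _ _).mpr dvd_rfl
        have h2 : p.1.1 * p.2.1 + p.1.2.1 * p.2.2.1 = - (p.1.2.2 * p.2.2.2) := by linarith
        rw [h2]
        exact (dvd_neg).mpr (Dvd.dvd.mul_right h1 _)
    · intro p hp q hq hpq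
      have hp1 := Finset.mem_filter.mp hp
      have hq1 := Finset.mem_filter.mp hq
      have hp2 := hp1.1
      have hq2 := hq1.1
      unfold KSet at hp2 hq2
      rw [Finset.mem_filter] at hp2 hq2
      obtain ⟨_, hc0, _, _, hdot⟩ := hp2
      obtain ⟨_, hc0', _, _, hdot'⟩ := hq2
      simp only [Prod.mk.injEq] at hpq
      obtain ⟨hs, ha, hb, hx, hy⟩ := hpq
      have hc : p.1.2.2 = q.1.2.2 := by
        have e1 := Int.sign_mul_natAbs p.1.2.2
        have e2 := Int.sign_mul_natAbs q.1.2.2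
        have hm1 : (p.1.2.2).natAbs = m := hp1.2
        have hm2 : (q.1.2.2).natAbs = m := hq1.2
        rw [← e1, ← e2, hs, hm1, hm2]
      have hz : p.2.2.2 = q.2.2.2 := by
        have : p.1.2.2 * p.2.2.2 = p.1.2.2 * q.2.2.2 := by
          rw [ha, hb, hx, hy] at hdot
          have h3 : p.1.2.2 * p.2.2.2 = q.1.2.2 * q.2.2.2 := by linarith
          rw [h3, hc]
        exact mul_left_cancel₀ hc0 this
      ext <;> assumption
  push_cast
  calc ∑ m ∈ Finset.Icc 1 T, (((KSet T).filter (fun p => (p.1.2.2).natAbs = m)).card : ℝ)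
      ≤ ∑ m ∈ Finset.Icc 1 T, 2 * (81 * (T:ℝ)^2 * ((∑ e ∈ m.divisors, e : ℕ) : ℝ)) := by
        refine Finset.sum_le_sum (fun m hm => ?_)
        have h1 : (((KSet T).filter (fun p => (p.1.2.2).natAbs = m)).card : ℝ)
            ≤ 2 * ((QSet T m).card : ℝ) := by exact_mod_cast hfib m hm
        rw [Finset.mem_Icc] at hm
        have h2 := card_QSet_le T m (by omega) hm.2
        linarith
    _ = 162 * (T:ℝ)^2 * ((∑ m ∈ Finset.Icc 1 T, ∑ e ∈ m.divisors, e : ℕ) : ℝ) := by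
        push_cast
        rw [Finset.mul_sum]
        refine Finset.sum_congr rfl (fun m _ => ?_)
        ring
    _ ≤ 162 * (T:ℝ)^2 * ((T^2 : ℕ) : ℝ) := by
        gcongr
        exact_mod_cast sum_sigma_le T
    _ = 162 * (T:ℝ)^4 := by push_cast; ring





/-- all orthogonal pairs in the box -/
noncomputable def WSet (T : ℕ) : Finset ((ℤ × ℤ × ℤ) × (ℤ × ℤ × ℤ)) :=
  (((Finset.Icc (-(T:ℤ)) T) ×ˢ (Finset.Icc (-(T:ℤ)) T) ×ˢ (Finset.Icc (-(T:ℤ)) T)) ×ˢ
    ((Finset.Icc (-(T:ℤ)) T) ×ˢ (Finset.Icc (-(T:ℤ)) T) ×ˢ (Finset.Icc (-(T:ℤ)) T))).filter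
    (fun p => p.1.1 * p.2.1 + p.1.2.1 * p.2.2.1 + p.1.2.2 * p.2.2.2 = 0)

lemma ne_zero_of_dominant (x y z : ℤ) (hy : |y| ≤ |x|) (hz : |z| ≤ |x|)
    (h : ¬ (x = 0 ∧ y = 0 ∧ z = 0)) : x ≠ 0 := by
  rintro rfl
  rw [abs_zero] at hy hz
  exact h ⟨rfl, abs_eq_zero.mp (le_antisymm hy (abs_nonneg y)),
    abs_eq_zero.mp (le_antisymm hz (abs_nonneg z))⟩

lemma dominant (a b c : ℤ) (h : ¬ (a = 0 ∧ b = 0 ∧ c = 0)) :
    (c ≠ 0 ∧ |a| ≤ |c| ∧ |b| ≤ |c|) ∨ ((a ≠ 0 ∧ |b| ≤ |a| ∧ |c| ≤ |a|) ∨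
      (b ≠ 0 ∧ |a| ≤ |b| ∧ |c| ≤ |b|)) := by
  rcases le_total |a| |c| with h1 | h1
  · rcases le_total |b| |c| with h2 | h2
    · left
      exact ⟨ne_zero_of_dominant c a b h1 h2 (fun ⟨e1, e2, e3⟩ => h ⟨e2, e3, e1⟩), h1, h2⟩
    · right; right
      exact ⟨ne_zero_of_dominant b a c (h1.trans h2) h2 (fun ⟨e1, e2, e3⟩ => h ⟨e2, e1, e3⟩),
        h1.trans h2, h2⟩
  · rcases le_total |b| |a| with h2 | h2
    · right; left
      exact ⟨ne_zero_of_dominant a b c h2 h1 h, h2, h1⟩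
    · right; right
      exact ⟨ne_zero_of_dominant b a c h2 (h1.trans h2) (fun ⟨e1, e2, e3⟩ => h ⟨e2, e1, e3⟩),
        h2, h1.trans h2⟩

lemma card_WSet_le (T : ℕ) : (WSet T).card ≤ (2*T+1)^3 + 3 * (KSet T).card := by
  classical
  set I := Finset.Icc (-(T:ℤ)) T with hI
  set W0 := (WSet T).filter (fun p => p.1 = (0,0,0)) with hW0
  set W3 := (WSet T).filter (fun p => p.1.2.2 ≠ 0 ∧ |p.1.1| ≤ |p.1.2.2| ∧ |p.1.2.1| ≤ |p.1.2.2|) with hW3
  set W1 := (WSet T).filter (fun p => p.1.1 ≠ 0 ∧ |p.1.2.1| ≤ |p.1.1| ∧ |p.1.2.2| ≤ |p.1.1|) with hW1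
  set W2 := (WSet T).filter (fun p => p.1.2.1 ≠ 0 ∧ |p.1.1| ≤ |p.1.2.1| ∧ |p.1.2.2| ≤ |p.1.2.1|) with hW2
  have hcover : WSet T ⊆ W0 ∪ (W3 ∪ (W1 ∪ W2)) := by
    intro p hp
    simp only [Finset.mem_union, hW0, hW1, hW2, hW3, Finset.mem_filter, hp, true_and]
    obtain ⟨⟨a, b, c⟩, v⟩ := p
    simp only
    by_cases h0 : (a, b, c) = ((0:ℤ), (0:ℤ), (0:ℤ))
    · left; exact h0
    · right
      apply dominant
      rintro ⟨rfl, rfl, rfl⟩
      exact h0 rfl
  have hc0 : W0.card ≤ (2*T+1)^3 := by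
    have hI3 : (I ×ˢ I ×ˢ I).card = (2*T+1)^3 := by
      rw [Finset.card_product, Finset.card_product, hI, Int.card_Icc]
      have : ((T:ℤ) + 1 - -(T:ℤ)).toNat = 2*T+1 := by omega
      rw [this]; ring
    rw [← hI3]
    apply Finset.card_le_card_of_injOn (fun p => p.2)
    · intro p hp
      have h1 := (Finset.mem_filter.mp hp).1
      unfold WSet at h1
      have h2 := (Finset.mem_filter.mp h1).1
      exact (Finset.mem_product.mp h2).2
    · intro p hp q hq hpq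
      have h1 := (Finset.mem_filter.mp hp).2
      have h2 := (Finset.mem_filter.mp hq).2
      exact Prod.ext (h1.trans h2.symm) hpq
  have hc3 : W3.card ≤ (KSet T).card := by
    apply Finset.card_le_card
    intro p hp
    have h1 := Finset.mem_filter.mp hp
    have h2 := h1.1
    unfold WSet at h2
    have h3 := Finset.mem_filter.mp h2
    unfold KSet
    rw [Finset.mem_filter]
    exact ⟨h3.1, h1.2.1, h1.2.2.1, h1.2.2.2, h3.2⟩
  have hc1 : W1.card ≤ (KSet T).card := by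
    apply Finset.card_le_card_of_injOn
      (fun p => ((p.1.2.1, p.1.2.2, p.1.1), (p.2.2.1, p.2.2.2, p.2.1)))
    · intro p hp
      have h1 := Finset.mem_filter.mp hp
      have h2 := h1.1
      unfold WSet at h2
      have h3 := Finset.mem_filter.mp h2
      have h4 := h3.1
      simp only [Finset.mem_product] at h4
      unfold KSet
      simp only [Finset.coe_filter, Set.mem_ofPred_eq, Finset.mem_product]
      refine ⟨⟨⟨h4.1.2.1, h4.1.2.2, h4.1.1⟩, h4.2.2.1, h4.2.2.2, h4.2.1⟩, h1.2.1, h1.2.2.1, h1.2.2.2, ?_⟩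
      linarith [h3.2]
    · intro p _ q _ hpq
      simp only [Prod.mk.injEq] at hpq
      obtain ⟨⟨e1, e2, e3⟩, e4, e5, e6⟩ := hpq
      ext <;> assumption
  have hc2 : W2.card ≤ (KSet T).card := by
    apply Finset.card_le_card_of_injOn
      (fun p => ((p.1.1, p.1.2.2, p.1.2.1), (p.2.1, p.2.2.2, p.2.2.1)))
    · intro p hp
      have h1 := Finset.mem_filter.mp hp
      have h2 := h1.1
      unfold WSet at h2
      have h3 := Finset.mem_filter.mp h2
      have h4 := h3.1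
      simp only [Finset.mem_product] at h4
      unfold KSet
      simp only [Finset.coe_filter, Set.mem_ofPred_eq, Finset.mem_product]
      refine ⟨⟨⟨h4.1.1, h4.1.2.2, h4.1.2.1⟩, h4.2.1, h4.2.2.2, h4.2.2.1⟩, h1.2.1, h1.2.2.1, h1.2.2.2, ?_⟩
      linarith [h3.2]
    · intro p _ q _ hpq
      simp only [Prod.mk.injEq] at hpq
      obtain ⟨⟨e1, e2, e3⟩, e4, e5, e6⟩ := hpq
      ext <;> assumption
  calc (WSet T).card ≤ (W0 ∪ (W3 ∪ (W1 ∪ W2))).card := Finset.card_le_card hcover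
    _ ≤ W0.card + (W3.card + (W1.card + W2.card)) := by
        refine (Finset.card_union_le _ _).trans ?_
        gcongr
        refine (Finset.card_union_le _ _).trans ?_
        gcongr
        exact Finset.card_union_le _ _
    _ ≤ (2*T+1)^3 + 3 * (KSet T).card := by omega

/-- Cauchy-Schwarz: `|s|^2 ≤ |f(s)| * #{(x,y) : f x = f y}`. -/
lemma card_sq_le_image_mul_pairs {α β : Type*} [DecidableEq α] [DecidableEq β] (s : Finset α)
    (f : α → β) :
    s.card^2 ≤ (s.image f).card * ((s ×ˢ s).filter (fun p => f p.1 = f p.2)).card := by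
  have h1 : s.card = ∑ b ∈ s.image f, (s.filter (fun x => f x = b)).card :=
    Finset.card_eq_sum_card_image f s
  have h2 : ((s ×ˢ s).filter (fun p => f p.1 = f p.2)).card
      = ∑ b ∈ s.image f, (s.filter (fun x => f x = b)).card^2 := by
    have hmaps : ∀ p ∈ (s ×ˢ s).filter (fun p => f p.1 = f p.2), f p.1 ∈ s.image f := by
      intro p hp
      have := (Finset.mem_product.mp (Finset.mem_filter.mp hp).1).1
      exact Finset.mem_image_of_mem f this
    rw [Finset.card_eq_sum_card_fiberwise hmaps]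
    refine Finset.sum_congr rfl (fun b _ => ?_)
    rw [sq, ← Finset.card_product]
    congr 1
    ext p
    simp only [Finset.mem_filter, Finset.mem_product]
    constructor
    · rintro ⟨⟨⟨h1, h2⟩, h3⟩, h4⟩
      exact ⟨⟨h1, h4⟩, h2, by rw [← h3]; exact h4⟩
    · rintro ⟨⟨h1, h2⟩, h3, h4⟩
      exact ⟨⟨⟨h1, h3⟩, by rw [h2, h4]⟩, h2⟩
  rw [h2, h1]
  exact sq_sum_le_card_mul_sum_sq





/-- the family of vectors `(x,y,z)` with `1 ≤ x ≤ s`, `0 ≤ y,z ≤ s`. -/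
noncomputable def FSet (s : ℕ) : Finset (ℤ × ℤ × ℤ) :=
  (Finset.Icc (1:ℤ) s) ×ˢ (Finset.Icc (0:ℤ) s) ×ˢ (Finset.Icc (0:ℤ) s)

def nrm3 (p : ℤ × ℤ × ℤ) : ℤ := p.1^2 + p.2.1^2 + p.2.2^2

lemma card_pairs_FSet_le (s : ℕ) :
    (((FSet s) ×ˢ (FSet s)).filter (fun p => nrm3 p.1 = nrm3 p.2)).card ≤ (WSet (2*s)).card := by
  apply Finset.card_le_card_of_injOn
    (fun p => ((p.1.1 - p.2.1, p.1.2.1 - p.2.2.1, p.1.2.2 - p.2.2.2),
      (p.1.1 + p.2.1, p.1.2.1 + p.2.2.1, p.1.2.2 + p.2.2.2)))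
  · intro p hp
    have h1 := Finset.mem_filter.mp hp
    have h2 := h1.1
    unfold FSet at h2
    simp only [Finset.mem_product, Finset.mem_Icc] at h2
    obtain ⟨⟨⟨a1, a2⟩, ⟨a3, a4⟩, a5, a6⟩, ⟨b1, b2⟩, ⟨b3, b4⟩, b5, b6⟩ := h2
    have h3 : nrm3 p.1 = nrm3 p.2 := h1.2
    unfold nrm3 at h3
    unfold WSet
    simp only [Finset.coe_filter, Set.mem_ofPred_eq, Finset.mem_product, Finset.mem_Icc]
    push_cast
    refine ⟨⟨⟨⟨by linarith, by linarith⟩, ⟨by linarith, by linarith⟩, by linarith, by linarith⟩,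
      ⟨by linarith, by linarith⟩, ⟨by linarith, by linarith⟩, by linarith, by linarith⟩, ?_⟩
    linarith
  · intro p _ q _ hpq
    simp only [Prod.mk.injEq] at hpq
    obtain ⟨⟨e1, e2, e3⟩, e4, e5, e6⟩ := hpq
    ext
    · linarith
    · linarith
    · linarith
    · linarith
    · linarith
    · linarith

lemma card_FSet (s : ℕ) : (FSet s).card = s * ((s+1) * (s+1)) := by
  unfold FSet
  rw [Finset.card_product, Finset.card_product, Int.card_Icc, Int.card_Icc]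
  have h1 : ((s:ℤ) + 1 - 1).toNat = s := by omega
  have h2 : ((s:ℤ) + 1 - 0).toNat = s + 1 := by omega
  rw [h1, h2]

/-- positive proportion: at least `s^2/7901` distinct values of `x^2+y^2+z^2` on the box. -/
lemma sq_le_card_image (s : ℕ) : (s:ℝ)^2 ≤ 7901 * (((FSet s).image nrm3).card : ℝ) := by
  rcases Nat.eq_zero_or_pos s with rfl | hs
  · simp
  have hs' : (1:ℝ) ≤ s := by exact_mod_cast hs
  have h1 := card_sq_le_image_mul_pairs (FSet s) nrm3
  have h2 := card_pairs_FSet_le s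
  have h3 := card_WSet_le (2*s)
  have h4 := card_KSet_le (2*s)
  set A := ((FSet s).image nrm3).card with hA
  have h5 : ((WSet (2*s)).card : ℝ) ≤ 7901 * (s:ℝ)^4 := by
    have h3' : ((WSet (2*s)).card : ℝ) ≤ (2*(2*(s:ℝ))+1)^3 + 3 * ((KSet (2*s)).card : ℝ) := by
      exact_mod_cast h3
    push_cast at h4
    have h6 : (2*(2*(s:ℝ))+1)^3 ≤ 125 * (s:ℝ)^4 := by
      have : 2*(2*(s:ℝ))+1 ≤ 5 * s := by linarith
      calc (2*(2*(s:ℝ))+1)^3 ≤ (5 * (s:ℝ))^3 := by gcongr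
        _ = 125 * (s:ℝ)^3 * 1 := by ring
        _ ≤ 125 * (s:ℝ)^3 * s := by gcongr
        _ = 125 * (s:ℝ)^4 := by ring
    have h7 : 162 * (2 * (s:ℝ))^4 = 2592 * (s:ℝ)^4 := by ring
    linarith
  have h6 : ((FSet s).card : ℝ)^2 ≤ (A:ℝ) * (7901 * (s:ℝ)^4) := by
    calc ((FSet s).card : ℝ)^2 ≤ (A:ℝ) *
        ((((FSet s) ×ˢ (FSet s)).filter (fun p => nrm3 p.1 = nrm3 p.2)).card : ℝ) := by
          exact_mod_cast h1
      _ ≤ (A:ℝ) * ((WSet (2*s)).card : ℝ) := by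
          gcongr
      _ ≤ (A:ℝ) * (7901 * (s:ℝ)^4) := by gcongr
  have h7 : (s:ℝ)^3 ≤ ((FSet s).card : ℝ) := by
    rw [card_FSet]
    push_cast
    have : (s:ℝ)^3 = s * (s * s) := by ring
    rw [this]
    gcongr <;> linarith
  have h8 : ((s:ℝ)^3)^2 ≤ (A:ℝ) * (7901 * (s:ℝ)^4) := by
    calc ((s:ℝ)^3)^2 ≤ ((FSet s).card : ℝ)^2 := by gcongr
      _ ≤ _ := h6
  have hs4 : 0 < (s:ℝ)^4 := by positivity
  have h9 : (s:ℝ)^2 * (s:ℝ)^4 ≤ (7901 * (A:ℝ)) * (s:ℝ)^4 := by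
    calc (s:ℝ)^2 * (s:ℝ)^4 = ((s:ℝ)^3)^2 := by ring
      _ ≤ (A:ℝ) * (7901 * (s:ℝ)^4) := h8
      _ = (7901 * (A:ℝ)) * (s:ℝ)^4 := by ring
  exact le_of_mul_le_mul_right h9 hs4

/-- a vector of `{0..s}^d`, `d ≥ 3`, with prescribed first three coordinates. -/
lemma exists_vec_three {d : ℕ} (hd : 3 ≤ d) (s : ℕ) (x y z : ℤ)
    (hx : 0 ≤ x ∧ x ≤ s) (hy : 0 ≤ y ∧ y ≤ s) (hz : 0 ≤ z ∧ z ≤ s) :
    ∃ v : Fin d → ℤ, (∀ i, 0 ≤ v i ∧ v i ≤ s) ∧ nsq v = x^2 + y^2 + z^2 := by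
  obtain ⟨d', rfl⟩ : ∃ d', d = 3 + d' := ⟨d - 3, by omega⟩
  let g : ℕ → ℤ := fun j => if j = 0 then x else if j = 1 then y else if j = 2 then z else 0
  have hg : ∀ j, 0 ≤ g j ∧ g j ≤ s := by
    intro j
    simp only [g]
    split_ifs
    · exact hx
    · exact hy
    · exact hz
    · exact ⟨le_rfl, by positivity⟩
  refine ⟨fun i => g i.val, fun i => hg i.val, ?_⟩
  unfold nsq
  have h1 : ∑ i : Fin (3 + d'), (g i.val)^2 = ∑ j ∈ Finset.range (3 + d'), (g j)^2 :=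
    Fin.sum_univ_eq_sum_range (fun j => (g j)^2) (3 + d')
  rw [h1, Finset.sum_range_add]
  have h2 : ∑ x ∈ Finset.range d', (g (3 + x))^2 = 0 := by
    apply Finset.sum_eq_zero
    intro x _
    have : g (3 + x) = 0 := by
      simp only [g]
      rw [if_neg (by omega), if_neg (by omega), if_neg (by omega)]
    rw [this]; simp
  rw [h2]
  simp only [Finset.sum_range_succ, Finset.sum_range_zero, g]
  simp

/-- richness of squared norms in every dimension `d ≥ 3`. -/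
lemma rich_three {d : ℕ} (hd : 3 ≤ d) (s : ℕ) : ∃ S : Finset ℤ,
    (∀ N ∈ S, N ≠ 0 ∧ ∃ v : Fin d → ℤ, (∀ i, 0 ≤ v i ∧ v i ≤ s) ∧ nsq v = N) ∧
    (s:ℝ)^2 ≤ 7901 * S.card := by
  refine ⟨(FSet s).image nrm3, ?_, sq_le_card_image s⟩
  intro N hN
  rw [Finset.mem_image] at hN
  obtain ⟨⟨x, y, z⟩, hp, rfl⟩ := hN
  unfold FSet at hp
  simp only [Finset.mem_product, Finset.mem_Icc] at hp
  obtain ⟨⟨x1, x2⟩, hy, hz⟩ := hp
  constructor
  · unfold nrm3
    simp only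
    have : 0 < x^2 := by positivity
    have := sq_nonneg y
    have := sq_nonneg z
    linarith
  · exact exists_vec_three hd s x y z ⟨by linarith, x2⟩ hy hz


end Vale.Agent.Lib.P054
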