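import Vale.Agent.Lib.P054.Grid
import Vale.Agent.Lib.P054.Energy

/-! # P054, pinned distances in dense grid subsets: the energy bound on a slice -/

open Finset

namespace Vale.Agent.Lib.P054

/-- a sum over `Fin d` of a function vanishing at all indices `≥ 3` -/
lemma sum_eq_three (d : ℕ) (hd : 3 ≤ d) (f : Fin d → ℤ) (hf : ∀ i : Fin d, 3 ≤ i.val → f i = 0) :
    ∑ i, f i = f ⟨0, by omega⟩ + f ⟨1, by omega⟩ + f ⟨2, by omega⟩ := by
  have hsub : ({⟨0, by omega⟩, ⟨1, by omega⟩, ⟨2, by omega⟩} : Finset (Fin d)) ⊆ Finset.univ :=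
    Finset.subset_univ _
  rw [← Finset.sum_subset hsub]
  · rw [Finset.sum_insert, Finset.sum_insert, Finset.sum_singleton]
    · ring
    · simp [Fin.ext_iff]
    · simp [Fin.ext_iff]
  · intro i _ hi
    apply hf
    by_contra h
    apply hi
    simp only [Finset.mem_insert, Finset.mem_singleton, Fin.ext_iff]
    omega

/-- Plan: `card_sq_le_image_mul_pairs F (fun q => nsq (q - p))`, then inject the pairs `(q, q')` of
`F ×ˢ F` with `nsq (q - p) = nsq (q' - p)` into `WSet (2 * t)` by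
`(q, q') ↦ ((q 0 - q' 0, q 1 - q' 1, q 2 - q' 2), (q 0 + q' 0 - 2 p 0, q 1 + q' 1 - 2 p 1, q 2 + q' 2 - 2 p 2))`
(compare `card_pairs_FSet_le` in Energy.lean).  Orthogonality:
`nsq (q - p) - nsq (q' - p) = ∑ i, (q i - q' i) * (q i + q' i - 2 * p i)` and the terms with
`3 ≤ i.val` vanish (`sum_eq_three`).  Injectivity: the first three coordinates are recovered from
the image, the others agree on `F`. -/
lemma card_sq_le_of_slice (d : ℕ) (hd : 3 ≤ d) (t : ℕ) (F : Finset (Fin d → ℤ))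
    (hF : ∀ q ∈ F, ∀ i, 1 ≤ q i ∧ q i ≤ t)
    (hag : ∀ q ∈ F, ∀ q' ∈ F, ∀ i : Fin d, 3 ≤ i.val → q i = q' i)
    (p : Fin d → ℤ) (hp : ∀ i, 1 ≤ p i ∧ p i ≤ t) :
    F.card ^ 2 ≤ (F.image (fun q => nsq (q - p))).card * (WSet (2 * t)).card := by
  have h1 := card_sq_le_image_mul_pairs F (fun q => nsq (q - p))
  refine h1.trans (Nat.mul_le_mul_left _ ?_)
  obtain ⟨i0, hi0⟩ : ∃ i : Fin d, i = ⟨0, by omega⟩ := ⟨_, rfl⟩
  obtain ⟨i1, hi1⟩ : ∃ i : Fin d, i = ⟨1, by omega⟩ := ⟨_, rfl⟩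
  obtain ⟨i2, hi2⟩ : ∃ i : Fin d, i = ⟨2, by omega⟩ := ⟨_, rfl⟩
  apply Finset.card_le_card_of_injOn
    (fun P => ((P.1 i0 - P.2 i0, P.1 i1 - P.2 i1, P.1 i2 - P.2 i2),
      (P.1 i0 + P.2 i0 - 2 * p i0, P.1 i1 + P.2 i1 - 2 * p i1, P.1 i2 + P.2 i2 - 2 * p i2)))
  · intro P hP
    have h2 := Finset.mem_filter.mp hP
    have h3 := Finset.mem_product.mp h2.1
    have hq := hF P.1 h3.1
    have hq' := hF P.2 h3.2
    have h4 : nsq (P.1 - p) = nsq (P.2 - p) := h2.2
    have h5 : ∑ i, (P.1 i - P.2 i) * (P.1 i + P.2 i - 2 * p i) = 0 := by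
      have : ∑ i, (P.1 i - P.2 i) * (P.1 i + P.2 i - 2 * p i)
          = nsq (P.1 - p) - nsq (P.2 - p) := by
        unfold nsq
        rw [← Finset.sum_sub_distrib]
        refine Finset.sum_congr rfl (fun i _ => ?_)
        simp only [Pi.sub_apply]
        ring
      rw [this, h4, sub_self]
    rw [sum_eq_three d hd _ (fun i hi => by rw [hag P.1 h3.1 P.2 h3.2 i hi]; ring),
      ← hi0, ← hi1, ← hi2] at h5
    have a0 := hq i0
    have a1 := hq i1
    have a2 := hq i2
    have b0 := hq' i0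
    have b1 := hq' i1
    have b2 := hq' i2
    have c0 := hp i0
    have c1 := hp i1
    have c2 := hp i2
    unfold WSet
    simp only [Finset.coe_filter, Set.mem_ofPred_eq, Finset.mem_product, Finset.mem_Icc]
    push_cast
    refine ⟨⟨⟨⟨by linarith, by linarith⟩, ⟨by linarith, by linarith⟩, by linarith, by linarith⟩,
      ⟨by linarith, by linarith⟩, ⟨by linarith, by linarith⟩, by linarith, by linarith⟩, ?_⟩
    linarith
  · intro P hP R hR hPR
    have hP2 := Finset.mem_product.mp (Finset.mem_filter.mp hP).1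
    have hR2 := Finset.mem_product.mp (Finset.mem_filter.mp hR).1
    simp only [Prod.mk.injEq] at hPR
    obtain ⟨⟨e1, e2, e3⟩, e4, e5, e6⟩ := hPR
    have key : ∀ i : Fin d, P.1 i = R.1 i ∧ P.2 i = R.2 i := by
      intro i
      by_cases h3 : 3 ≤ i.val
      · exact ⟨hag _ hP2.1 _ hR2.1 i h3, hag _ hP2.2 _ hR2.2 i h3⟩
      · have : i = i0 ∨ i = i1 ∨ i = i2 := by
          rw [hi0, hi1, hi2]
          simp only [Fin.ext_iff]
          omega
        rcases this with rfl | rfl | rfl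
        · constructor <;> linarith
        · constructor <;> linarith
        · constructor <;> linarith
    exact Prod.ext (funext fun i => (key i).1) (funext fun i => (key i).2)

end Vale.Agent.Lib.P054
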