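import Vale.Agent.Lib.P054.PinSlice
import Vale.Agent.Lib.P054.PinCore
import Vale.Agent.Lib.P054.PinTransfer

/-! # P054, pinned distances in dense grid subsets: the main theorem -/

open Finset

namespace Vale.Agent.Lib.P054

lemma card_WSet_two_mul_le' (t : ℕ) (ht : 1 ≤ t) : ((WSet (2 * t)).card : ℝ) ≤ 7901 * (t : ℝ) ^ 4 := by
  have h3 := card_WSet_le (2 * t)
  have h4 := card_KSet_le (2 * t)
  have h3' : ((WSet (2 * t)).card : ℝ) ≤ (2 * (2 * (t : ℝ)) + 1) ^ 3 + 3 * ((KSet (2 * t)).card : ℝ) := by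
    exact_mod_cast h3
  push_cast at h4
  have ht' : (1 : ℝ) ≤ t := by exact_mod_cast ht
  have e1 : (2 * (2 * (t : ℝ)) + 1) ^ 3 ≤ 125 * (t : ℝ) ^ 3 := by
    have : 2 * (2 * (t : ℝ)) + 1 ≤ 5 * t := by linarith
    calc (2 * (2 * (t : ℝ)) + 1) ^ 3 ≤ (5 * (t : ℝ)) ^ 3 := by gcongr
      _ = 125 * (t : ℝ) ^ 3 := by ring
  have e2 : (t : ℝ) ^ 3 ≤ (t : ℝ) ^ 4 := by
    have : (t : ℝ) ^ 4 = (t : ℝ) ^ 3 * t := by ring
    rw [this]
    have h0 : 0 ≤ (t : ℝ) ^ 3 := by positivity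
    nlinarith
  have e3 : 162 * (2 * (t : ℝ)) ^ 4 = 2592 * (t : ℝ) ^ 4 := by ring
  rw [e3] at h4
  linarith

/-- every point of the box sees many distinct squared distances to a subset of the box -/
lemma pinned_int (d : ℕ) (hd : 3 ≤ d) (t : ℕ) (ht : 1 ≤ t) (Q : Finset (Fin d → ℤ))
    (hQ : ∀ q ∈ Q, ∀ i, 1 ≤ q i ∧ q i ≤ t) (p : Fin d → ℤ) (hp : ∀ i, 1 ≤ p i ∧ p i ≤ t) :
    (Q.card : ℝ) ^ 2 * (t : ℝ) ^ 2
      ≤ 7901 * ((t : ℝ) ^ d) ^ 2 * ((Q.image (fun q => nsq (q - p))).card : ℝ) := by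
  classical
  obtain ⟨F, hFQ, hag, hcard⟩ := exists_slice d hd t Q hQ
  have h1 := card_sq_le_of_slice d hd t F (fun q hq => hQ q (hFQ hq)) hag p hp
  have h2 := card_WSet_two_mul_le' t ht
  have h3 : (F.image (fun q => nsq (q - p))).card ≤ (Q.image (fun q => nsq (q - p))).card :=
    Finset.card_le_card (Finset.image_subset_image hFQ)
  have h1' : (F.card : ℝ) ^ 2
      ≤ ((F.image (fun q => nsq (q - p))).card : ℝ) * ((WSet (2 * t)).card : ℝ) := by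
    exact_mod_cast h1
  have h3' : ((F.image (fun q => nsq (q - p))).card : ℝ)
      ≤ ((Q.image (fun q => nsq (q - p))).card : ℝ) := by exact_mod_cast h3
  have hcard' : (Q.card : ℝ) ≤ (t : ℝ) ^ (d - 3) * (F.card : ℝ) := by exact_mod_cast hcard
  set D : ℝ := ((Q.image (fun q => nsq (q - p))).card : ℝ) with hD
  have hD0 : 0 ≤ D := by positivity
  have ht0 : (0 : ℝ) ≤ t := by positivity
  have hF2 : (F.card : ℝ) ^ 2 ≤ D * (7901 * (t : ℝ) ^ 4) := by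
    calc (F.card : ℝ) ^ 2
        ≤ ((F.image (fun q => nsq (q - p))).card : ℝ) * ((WSet (2 * t)).card : ℝ) := h1'
      _ ≤ D * (7901 * (t : ℝ) ^ 4) := by gcongr
  have hpow : (t : ℝ) ^ d = (t : ℝ) ^ (d - 3) * (t : ℝ) ^ 3 := by
    rw [← pow_add]; congr 1; omega
  have hQ2 : (Q.card : ℝ) ^ 2 ≤ ((t : ℝ) ^ (d - 3)) ^ 2 * (F.card : ℝ) ^ 2 := by
    rw [← mul_pow]
    gcongr
  calc (Q.card : ℝ) ^ 2 * (t : ℝ) ^ 2
      ≤ (((t : ℝ) ^ (d - 3)) ^ 2 * (D * (7901 * (t : ℝ) ^ 4))) * (t : ℝ) ^ 2 := by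
        gcongr
        exact hQ2.trans (by gcongr)
    _ = 7901 * ((t : ℝ) ^ d) ^ 2 * D := by rw [hpow]; ring

theorem pinned_dense_grid (d : ℕ) (hd : 3 ≤ d) (δ : ℝ) (hδ : 0 < δ) (t : ℕ)
    (P : Finset (EuclideanSpace ℝ (Fin d)))
    (hgrid : ∀ p ∈ P, ∀ i, ∃ k : ℕ, 1 ≤ k ∧ k ≤ t ∧ p i = k)
    (hdense : δ * (t:ℝ)^d ≤ P.card) (h2 : 2 ≤ P.card) (p : EuclideanSpace ℝ (Fin d))
    (hp : p ∈ P) :
    δ^2 / 31604 * (t:ℝ)^2 ≤ (((P.erase p).image (fun q => dist p q)).card : ℝ) ∧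
    δ^2 / 31604 * (P.card : ℝ)^((2:ℝ)/d) ≤ (((P.erase p).image (fun q => dist p q)).card : ℝ) := by
  classical
  have ht : 1 ≤ t := by
    obtain ⟨k, hk1, hk2, _⟩ := hgrid p hp ⟨0, by omega⟩
    omega
  have ht' : (1:ℝ) ≤ t := by exact_mod_cast ht
  obtain ⟨Q, p', hQ, hp', hQcard, hQD⟩ := transfer_pinned t P hgrid p hp
  have hmain := pinned_int d hd t ht Q hQ p' hp'
  set D : ℝ := (((P.erase p).image (fun q => dist p q)).card : ℝ) with hD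
  have hQD' : ((Q.image (fun q => nsq (q - p'))).card : ℝ) ≤ D := by
    rw [hD]; exact_mod_cast hQD
  have hQc : (Q.card : ℝ) = (P.card : ℝ) - 1 := by
    rw [hQcard, Finset.card_erase_of_mem hp, Nat.cast_sub (by omega)]
    simp
  have h2' : (2 : ℝ) ≤ P.card := by exact_mod_cast h2
  have hhalf : (P.card : ℝ) / 2 ≤ Q.card := by rw [hQc]; linarith
  have htd : 0 < (t:ℝ)^d := by positivity
  have hlow : δ * (t:ℝ)^d / 2 ≤ Q.card := le_trans (by linarith) hhalf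
  have hsq : (δ * (t:ℝ)^d / 2) ^ 2 ≤ (Q.card : ℝ) ^ 2 := by
    have : 0 ≤ δ * (t:ℝ)^d / 2 := by positivity
    gcongr
  have hchain : (δ * (t:ℝ)^d / 2) ^ 2 * (t:ℝ)^2 ≤ 7901 * ((t : ℝ) ^ d) ^ 2 * D := by
    calc (δ * (t:ℝ)^d / 2) ^ 2 * (t:ℝ)^2 ≤ (Q.card : ℝ) ^ 2 * (t:ℝ)^2 := by gcongr
      _ ≤ 7901 * ((t : ℝ) ^ d) ^ 2 * ((Q.image (fun q => nsq (q - p'))).card : ℝ) := hmain
      _ ≤ 7901 * ((t : ℝ) ^ d) ^ 2 * D := by gcongr
  have hfirst : δ^2 / 31604 * (t:ℝ)^2 ≤ D := by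
    have hpos : 0 < 7901 * ((t : ℝ) ^ d) ^ 2 := by positivity
    have e : (δ * (t:ℝ)^d / 2) ^ 2 * (t:ℝ)^2
        = 7901 * ((t : ℝ) ^ d) ^ 2 * (δ^2 / 31604 * (t:ℝ)^2) := by ring
    rw [e] at hchain
    exact le_of_mul_le_mul_left hchain hpos
  refine ⟨hfirst, le_trans ?_ hfirst⟩
  -- |P| ≤ t^d
  obtain ⟨Q0, hQ0, hQ0card, _⟩ := transfer t P hgrid
  have hcard : P.card ≤ t^d := by
    rw [← hQ0card]
    have hsub : Q0 ⊆ Fintype.piFinset (fun _ : Fin d => Finset.Icc (1:ℤ) t) := by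
      intro q hq
      rw [Fintype.mem_piFinset]
      intro i
      exact Finset.mem_Icc.mpr (hQ0 q hq i)
    have := Finset.card_le_card hsub
    rw [Fintype.card_piFinset] at this
    simpa using this
  have hcard' : (P.card : ℝ) ≤ (t:ℝ)^d := by exact_mod_cast hcard
  have hd0 : (0:ℝ) < d := by exact_mod_cast (by omega : 0 < d)
  have hpow : (P.card : ℝ)^((2:ℝ)/d) ≤ (t:ℝ)^2 := by
    calc (P.card : ℝ)^((2:ℝ)/d) ≤ ((t:ℝ)^d)^((2:ℝ)/d) := by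
          apply Real.rpow_le_rpow (by positivity) hcard' (by positivity)
      _ = (t:ℝ)^2 := by
          rw [← Real.rpow_natCast (t:ℝ) d, ← Real.rpow_mul (by positivity)]
          have : (d:ℝ) * ((2:ℝ)/d) = (2:ℕ) := by
            push_cast
            field_simp
          rw [this, Real.rpow_natCast]
  gcongr

end Vale.Agent.Lib.P054
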