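import Vale.Agent.Lib.P054.Grid

/-! # P054, pinned distances in dense grid subsets: a rich three-dimensional slice -/

open Finset

namespace Vale.Agent.Lib.P054

/-- Pigeonhole.  Plan: `π q = fun i => if i.val < 3 then 0 else q i` maps `Q` into
`Fintype.piFinset (fun i => if i.val < 3 then {0} else Finset.Icc 1 t)`, a set of `t ^ (d - 3)`
elements (`Fintype.card_piFinset`, `Finset.prod_ite`, the number of `i : Fin d` with `3 ≤ i.val` is
`d - 3`).  Take for `F` a fibre of `π` on `Q` of maximal cardinality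
(`Finset.card_le_mul_card_image` or `Finset.exists_le_card_fiber_of_mul_le_card_of_maps_to`).
If `Q` is empty take `F = ∅`. -/
lemma exists_slice (d : ℕ) (hd : 3 ≤ d) (t : ℕ) (Q : Finset (Fin d → ℤ))
    (hQ : ∀ q ∈ Q, ∀ i, 1 ≤ q i ∧ q i ≤ t) :
    ∃ F ⊆ Q, (∀ q ∈ F, ∀ q' ∈ F, ∀ i : Fin d, 3 ≤ i.val → q i = q' i) ∧
      Q.card ≤ t ^ (d - 3) * F.card := by
  classical
  obtain ⟨m, rfl⟩ := Nat.exists_eq_add_of_le hd
  set π : (Fin (3 + m) → ℤ) → (Fin (3 + m) → ℤ) := fun q i => if i.val < 3 then 0 else q i with hπ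
  set T : Finset (Fin (3 + m) → ℤ) := Fintype.piFinset
    (fun i : Fin (3 + m) => if i.val < 3 then ({0} : Finset ℤ) else Finset.Icc 1 (t : ℤ)) with hT
  have hTcard : T.card = t ^ m := by
    rw [hT, Fintype.card_piFinset]
    have h1 : ∀ i : Fin (3 + m),
        (if i.val < 3 then ({0} : Finset ℤ) else Finset.Icc 1 (t : ℤ)).card
          = (fun n : ℕ => if n < 3 then 1 else t) i.val := by
      intro i
      by_cases h : i.val < 3 <;> simp [h]
    rw [Finset.prod_congr rfl (fun i _ => h1 i),
      Fin.prod_univ_eq_prod_range (fun n : ℕ => if n < 3 then 1 else t), Finset.prod_range_add]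
    simp [Finset.prod_range_succ]
  have hmaps : Q.image π ⊆ T := by
    intro a ha
    obtain ⟨q, hq, rfl⟩ := Finset.mem_image.mp ha
    rw [hT, Fintype.mem_piFinset]
    intro i
    by_cases h : i.val < 3
    · simp [hπ, h]
    · simp only [hπ, h, if_false, Finset.mem_Icc]
      exact hQ q hq i
  rcases Q.eq_empty_or_nonempty with rfl | hne
  · exact ⟨∅, by simp, by simp, by simp⟩
  obtain ⟨a, -, hmax⟩ := Finset.exists_max_image (Q.image π)
    (fun a => (Q.filter (fun x => π x = a)).card) (hne.image π)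
  refine ⟨Q.filter (fun x => π x = a), Finset.filter_subset _ _, ?_, ?_⟩
  · intro q hq q' hq' i hi
    have h1 := (Finset.mem_filter.mp hq).2
    have h2 := (Finset.mem_filter.mp hq').2
    have h3 := congrFun (h1.trans h2.symm) i
    simpa [hπ, not_lt.mpr hi] using h3
  · calc Q.card ≤ (Q.filter (fun x => π x = a)).card * (Q.image π).card :=
          Finset.card_le_mul_card_image Q _ hmax
      _ ≤ (Q.filter (fun x => π x = a)).card * T.card :=
          Nat.mul_le_mul_left _ (Finset.card_le_card hmaps)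
      _ = t ^ (3 + m - 3) * (Q.filter (fun x => π x = a)).card := by
          rw [hTcard, Nat.add_sub_cancel_left, mul_comm]

end Vale.Agent.Lib.P054
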